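import Vale.Agent.P209.H856.Shake4

/-! # P209: energy estimate and the sub-fixed state -/

namespace Vale.Agent.P209.H856

open Function MeasureTheory Set

variable {d : ℕ} {Ω : Set (Fin d → ℝ)} {B κ Λ M : ℝ} {f g : (Fin d → ℝ) → ℝ} {a b : Fin d}
  {u v : Fin d → ℝ}

/-- Bounded and continuous on `Ω`. -/
def Nice (Ω : Set (Fin d → ℝ)) (f : (Fin d → ℝ) → ℝ) : Prop :=
  ContinuousOn f Ω ∧ ∃ M, ∀ u ∈ Ω, |f u| ≤ M

theorem DomOK.finite (hΩ : DomOK Ω B κ) : volume Ω ≠ ⊤ := by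
  have : volume Ω ≤ volume (Icc (fun _ : Fin d => (0 : ℝ)) (fun _ => B)) :=
    measure_mono fun u hu => ⟨fun a => hΩ.nonneg u hu a, fun a => hΩ.bdd u hu a⟩
  exact (this.trans_lt measure_Icc_lt_top).ne

theorem Nice.integrable (hΩ : DomOK Ω B κ) (hf : Nice Ω f) : IntegrableOn f Ω := by
  obtain ⟨hc, M, hM⟩ := hf
  refine IntegrableOn.of_bound hΩ.finite.lt_top (hc.aestronglyMeasurable hΩ.meas) M ?_
  refine (ae_restrict_iff' hΩ.meas).2 (Filter.Eventually.of_forall fun u hu => ?_)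
  rw [Real.norm_eq_abs]
  exact hM u hu

theorem Nice.add (hf : Nice Ω f) (hg : Nice Ω g) : Nice Ω (fun u => f u + g u) := by
  obtain ⟨hc, M, hM⟩ := hf
  obtain ⟨hc', M', hM'⟩ := hg
  exact ⟨hc.add hc', M + M', fun u hu => (abs_add_le _ _).trans (add_le_add (hM u hu) (hM' u hu))⟩

theorem Nice.sub (hf : Nice Ω f) (hg : Nice Ω g) : Nice Ω (fun u => f u - g u) := by
  obtain ⟨hc, M, hM⟩ := hf
  obtain ⟨hc', M', hM'⟩ := hg
  exact ⟨hc.sub hc', M + M', fun u hu => (abs_sub _ _).trans (add_le_add (hM u hu) (hM' u hu))⟩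

theorem Nice.mul (hf : Nice Ω f) (hg : Nice Ω g) : Nice Ω (fun u => f u * g u) := by
  obtain ⟨hc, M, hM⟩ := hf
  obtain ⟨hc', M', hM'⟩ := hg
  exact ⟨hc.mul hc', M * M', fun u hu => by
    rw [abs_mul]
    exact mul_le_mul (hM u hu) (hM' u hu) (abs_nonneg _) ((abs_nonneg _).trans (hM u hu))⟩

theorem nice_const (c : ℝ) : Nice Ω (fun _ => c) := ⟨continuousOn_const, |c|, fun _ _ => le_rfl⟩

theorem Cls.nice (hΩ : DomOK Ω B κ) (hf : Cls Ω Λ M f) (hΛ : 0 ≤ Λ) : Nice Ω f :=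
  ⟨hf.continuousOn hΩ hΛ, M, hf.bdd⟩

theorem nice_tent (hΩ : DomOK Ω B κ) {r : ℝ} (hr : 0 ≤ r) : Nice Ω (tent (d := d) r) := by
  refine ⟨?_, r, fun u hu => ?_⟩
  · unfold tent
    fun_prop
  · rw [abs_of_nonneg (tent_nonneg r u)]
    exact tent_le hr (hΩ.nonneg u hu)

/-- The sum of the tents. -/
noncomputable def tents (rs : List ℝ) (u : Fin d → ℝ) : ℝ := (rs.map fun r => tent r u).sum

theorem tents_nil (u : Fin d → ℝ) : tents [] u = 0 := rfl

theorem tents_cons (r : ℝ) (rs : List ℝ) (u : Fin d → ℝ) :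
    tents (r :: rs) u = tent r u + tents rs u := by simp [tents]

theorem nice_tents (hΩ : DomOK Ω B κ) (rs : List ℝ) (hr : ∀ r ∈ rs, 0 ≤ r) :
    Nice Ω (tents (d := d) rs) := by
  induction rs with
  | nil =>
    have : (tents (d := d) []) = fun _ => (0 : ℝ) := by funext u; rfl
    rw [this]
    exact nice_const 0
  | cons r rs ih =>
    have : (tents (d := d) (r :: rs)) = fun u => tent r u + tents rs u := by
      funext u; exact tents_cons r rs u
    rw [this]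
    exact (nice_tent hΩ (hr r (by simp))).add (ih fun r' hr' => hr r' (by simp [hr']))

theorem integral_mono_nice (hΩ : DomOK Ω B κ) (hf : Nice Ω f) (hg : Nice Ω g)
    (h : ∀ u ∈ Ω, f u ≤ g u) : (∫ u in Ω, f u) ≤ ∫ u in Ω, g u :=
  setIntegral_mono_on (hf.integrable hΩ) (hg.integrable hΩ) hΩ.meas h

/-- One step of the energy estimate. -/
theorem energy_step (hΩ : DomOK Ω B κ) {h : (Fin d → ℝ) → ℝ} (hh : State Ω Λ M h) (hΛ : 0 ≤ Λ)
    {r s : ℝ} (hr : 0 ≤ r) (hs : 0 ≤ s) (hg : Nice Ω g) (hgh : ∀ u ∈ Ω, g u - s ≤ h u) :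
    (∫ u in Ω, (psi Ω r h u) ^ 2) ≤ (∫ u in Ω, (h u) ^ 2) - 2 * (∫ u in Ω, g u * tent r u)
      + (2 * s * r + r ^ 2) * (volume Ω).toReal := by
  have h1 : (∫ u in Ω, (psi Ω r h u) ^ 2) = ∫ u in Ω, (h u - tent r u) ^ 2 :=
    integral_sq_shkL hΩ _ (hh.sub_tent hΩ hr) hΛ
  rw [h1]
  have nh := hh.cls.nice hΩ hΛ
  have nt := nice_tent hΩ hr
  have h2 : (∫ u in Ω, (h u - tent r u) ^ 2) ≤
      ∫ u in Ω, ((h u * h u - 2 * (g u * tent r u)) + (2 * s * r + r ^ 2)) := by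
    refine integral_mono_nice hΩ ?_ ?_ ?_
    · have := (nh.sub nt).mul (nh.sub nt)
      simpa only [sq] using this
    · exact ((nh.mul nh).sub ((nice_const 2).mul (hg.mul nt))).add (nice_const _)
    · intro u hu
      have t0 := tent_nonneg r u
      have t1 := tent_le (u := u) hr (hΩ.nonneg u hu)
      have := hgh u hu
      nlinarith [mul_nonneg hs t0, mul_le_mul_of_nonneg_left t1 hs, mul_le_mul_of_nonneg_right this t0]
  refine h2.trans (le_of_eq ?_)
  rw [integral_add, integral_sub, integral_const_mul, setIntegral_const]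
  · simp only [sq, smul_eq_mul, Measure.real]
    ring
  · exact (nh.mul nh).integrable hΩ
  · exact ((nice_const 2).mul (hg.mul nt)).integrable hΩ
  · exact (((nh.mul nh).sub ((nice_const 2).mul (hg.mul nt)))).integrable hΩ
  · exact (nice_const _).integrable hΩ

/-- The energy constant. -/
noncomputable def eK (s : ℝ) : List ℝ → ℝ
  | [] => 0
  | r :: rs => (2 * s * r + r ^ 2) + eK s rs

theorem eK_nonneg {s : ℝ} (hs : 0 ≤ s) (rs : List ℝ) (hr : ∀ r ∈ rs, 0 ≤ r) : 0 ≤ eK s rs := by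
  induction rs with
  | nil => exact le_rfl
  | cons r rs ih =>
    have h1 := hr r (by simp)
    have h2 := ih fun r' hr' => hr r' (by simp [hr'])
    simp only [eK]
    positivity

theorem energy_steps (hΩ : DomOK Ω B κ) (hg : Nice Ω g) {s : ℝ} (hs : 0 ≤ s) (rs : List ℝ) :
    ∀ {Λ M : ℝ} {h : (Fin d → ℝ) → ℝ}, State Ω Λ M h → 0 ≤ Λ → (∀ r ∈ rs, 0 ≤ r) →
      (∀ u ∈ Ω, g u - (s - rs.sum) ≤ h u) →
      (∫ u in Ω, (psiL Ω rs h u) ^ 2) ≤ (∫ u in Ω, (h u) ^ 2) - 2 * (∫ u in Ω, g u * tents rs u)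
        + eK s rs * (volume Ω).toReal := by
  induction rs with
  | nil =>
    intro Λ M h _ _ _ _
    simp [H856.psiL, tents, eK]
  | cons r rs ih =>
    intro Λ M h hh hΛ hr hgh
    rw [psiL_cons]
    have hr0 := hr r (by simp)
    have hrs : ∀ r' ∈ rs, 0 ≤ r' := fun r' hr' => hr r' (by simp [hr'])
    have hsum : 0 ≤ rs.sum := List.sum_nonneg hrs
    have hκ := hΩ.kappa
    have h1 := ih (hh.psi hΩ hΛ hr0) (by positivity) hrs (fun u hu => by
      have e1 := hgh u hu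
      have e2 := hh.le_psi hΩ hr0 u hu
      rw [List.sum_cons] at e1
      linarith)
    have h2 := energy_step (g := g) (s := s) hΩ hh hΛ hr0 hs hg (fun u hu => by
      have e1 := hgh u hu
      rw [List.sum_cons] at e1
      linarith)
    have e3 : (∫ u in Ω, g u * tents (r :: rs) u) =
        (∫ u in Ω, g u * tent r u) + (∫ u in Ω, g u * tents rs u) := by
      rw [← integral_add ((hg.mul (nice_tent hΩ hr0)).integrable hΩ)
        ((hg.mul (nice_tents hΩ rs hrs)).integrable hΩ)]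
      refine setIntegral_congr_fun hΩ.meas fun u _ => ?_
      simp only [tents_cons]
      ring
    rw [e3]
    simp only [eK]
    linarith

/-- The energy estimate for one turn. -/
theorem energy (hΩ : DomOK Ω B κ) {Λ M Λc Mc : ℝ} {g C : (Fin d → ℝ) → ℝ}
    (hg : State Ω Λ M g) (hΛ : 0 ≤ Λ) (hC : State Ω Λc Mc C) (hΛc : 0 ≤ Λc)
    (hC0 : ∀ u ∈ Ω, 0 ≤ C u) (rs : List ℝ) (hr : ∀ r ∈ rs, 0 ≤ r)
    (hD : (∫ u in Ω, g u * (C u - tents rs u)) ≤ 0) :
    (∫ u in Ω, (psiL Ω rs g u + C u) ^ 2) ≤ (∫ u in Ω, (g u) ^ 2) +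
      (eK rs.sum rs * (volume Ω).toReal + (∫ u in Ω, (C u) ^ 2)) := by
  have hs : 0 ≤ rs.sum := List.sum_nonneg hr
  have ng := hg.cls.nice hΩ hΛ
  have nC := hC.cls.nice hΩ hΛc
  have nt := nice_tents hΩ rs hr
  have hκ := hΩ.kappa
  have hp := hg.psiL hΩ rs hΛ hr
  have np := hp.cls.nice hΩ (by positivity)
  have h1 := energy_steps hΩ ng hs rs hg hΛ hr (fun u hu => by simp)
  have h2 : (∫ u in Ω, (psiL Ω rs g u + C u) ^ 2) ≤
      ∫ u in Ω, ((psiL Ω rs g u) * (psiL Ω rs g u) + 2 * (g u * C u) + C u * C u) := by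
    refine integral_mono_nice hΩ ?_ ?_ ?_
    · have := (np.add nC).mul (np.add nC)
      simpa only [sq] using this
    · exact ((np.mul np).add ((nice_const 2).mul (ng.mul nC))).add (nC.mul nC)
    · intro u hu
      have e1 := hg.psiL_le hΩ rs hΛ hr u hu
      have e2 := hC0 u hu
      nlinarith [mul_le_mul_of_nonneg_right e1 e2]
  have h3 : (∫ u in Ω, ((psiL Ω rs g u) * (psiL Ω rs g u) + 2 * (g u * C u) + C u * C u)) =
      (∫ u in Ω, (psiL Ω rs g u) ^ 2) + 2 * (∫ u in Ω, g u * C u) + (∫ u in Ω, (C u) ^ 2) := by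
    rw [integral_add, integral_add, integral_const_mul]
    · simp only [sq]
    · exact (np.mul np).integrable hΩ
    · exact ((nice_const 2).mul (ng.mul nC)).integrable hΩ
    · exact ((np.mul np).add ((nice_const 2).mul (ng.mul nC))).integrable hΩ
    · exact (nC.mul nC).integrable hΩ
  have h4 : (∫ u in Ω, g u * (C u - tents rs u)) =
      (∫ u in Ω, g u * C u) - (∫ u in Ω, g u * tents rs u) := by
    rw [← integral_sub ((ng.mul nC).integrable hΩ) ((ng.mul nt).integrable hΩ)]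
    refine setIntegral_congr_fun hΩ.meas fun u _ => ?_
    ring
  rw [h4] at hD
  rw [h3] at h2
  linarith

/-- Chebyshev: a state with small energy is not very negative near the origin. -/
theorem floor_of_energy (hΩ : DomOK Ω B κ) (hg : State Ω Λ M g) (hΛ : 0 ≤ Λ) {δ X q : ℝ}
    (hδ : 0 < δ) (hX : (∫ u in Ω, (g u) ^ 2) ≤ X) (hq : q ≤ 0) (hqX : X < q ^ 2 * δ ^ d)
    {v : Fin d → ℝ} (hv : ∀ a, 0 ≤ v a) (hvδ : (fun a => v a + δ) ∈ Ω) : q ≤ g v := by
  by_contra hcon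
  replace hcon := not_le.1 hcon
  set Q : Set (Fin d → ℝ) := Icc v (fun a => v a + δ) with hQ
  have hQΩ : Q ⊆ Ω := fun u hu => hΩ.down _ hvδ u (fun a => (hv a).trans (hu.1 a)) (fun a => hu.2 a)
  have hQv : (volume Q).toReal = δ ^ d := by
    rw [hQ, Real.volume_Icc_pi_toReal (fun a => by simp [hδ.le])]
    simp
  have hgQ : ∀ u ∈ Q, g u ≤ g v := fun u hu => hg.antitone hΩ (hQΩ hu) hv (fun a => hu.1 a)
  have ng := hg.cls.nice hΩ hΛ
  have i1 : IntegrableOn (fun u => (g u) ^ 2) Ω := by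
    have := (ng.mul ng).integrable hΩ
    simpa only [sq] using this
  have h1 : (∫ u in Q, (g u) ^ 2) ≤ ∫ u in Ω, (g u) ^ 2 :=
    setIntegral_mono_set i1 (Filter.Eventually.of_forall fun u => sq_nonneg _)
      (Filter.Eventually.of_forall hQΩ)
  have h2 : (∫ _ in Q, q ^ 2) ≤ ∫ u in Q, (g u) ^ 2 := by
    refine setIntegral_mono_on (integrableOn_const (isCompact_Icc.measure_lt_top.ne))
      (i1.mono_set hQΩ) measurableSet_Icc fun u hu => ?_
    have := hgQ u hu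
    nlinarith
  rw [setIntegral_const, smul_eq_mul, Measure.real, hQv] at h2
  linarith

/-- The sequence of states. -/
noncomputable def seqg (Ω : Set (Fin d → ℝ)) (rs : List ℝ) (C : (Fin d → ℝ) → ℝ) (lam : ℝ) :
    ℕ → (Fin d → ℝ) → ℝ
  | 0 => fun _ => 0
  | n + 1 => fun u => (1 - lam) * (psiL Ω rs (seqg Ω rs C lam n) u + C u)

theorem seqg_state (hΩ : DomOK Ω B κ) {Λc Mc : ℝ} {C : (Fin d → ℝ) → ℝ}
    (hC : State Ω Λc Mc C) (hΛc : 0 ≤ Λc) (hMc : 0 ≤ Mc) (rs : List ℝ) (hr : ∀ r ∈ rs, 0 ≤ r)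
    {lam : ℝ} (h0 : 0 ≤ lam) (h1 : lam ≤ 1) (n : ℕ) :
    ∃ Λ M : ℝ, 0 ≤ Λ ∧ 0 ≤ M ∧ State Ω Λ M (seqg Ω rs C lam n) := by
  induction n with
  | zero => exact ⟨0, 0, le_rfl, le_rfl, State.zero hΩ⟩
  | succ n ih =>
    obtain ⟨Λ, M, hΛ, hM, hs⟩ := ih
    have hκ := hΩ.kappa
    have hsum : 0 ≤ rs.sum := List.sum_nonneg hr
    have h2 := ((hs.psiL hΩ rs hΛ hr).add hC).smul (by positivity) (by positivity)
      (c := 1 - lam) (by linarith) (by linarith)
    exact ⟨_, _, by positivity, by positivity, h2⟩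

/-- **Sub-fixed state.** -/
theorem exists_state (hΩ : DomOK Ω B κ) (rs : List ℝ) (hr : ∀ r ∈ rs, 0 ≤ r)
    {δ : ℝ} (hδ : 0 < δ)
    (hrΩ : ∀ r ∈ rs, ∀ v : Fin d → ℝ, (∀ a, 0 ≤ v a) → ∑ a, v a ≤ r → (fun a => v a + δ) ∈ Ω)
    {Λc Mc : ℝ} {C : (Fin d → ℝ) → ℝ} (hC : State Ω Λc Mc C) (hΛc : 0 ≤ Λc)
    (hC0 : ∀ u ∈ Ω, 0 ≤ C u)
    (hD : ∀ (Λ M : ℝ) (g : (Fin d → ℝ) → ℝ), State Ω Λ M g →
      (∫ u in Ω, g u * (C u - tents rs u)) ≤ 0)
    {ε : ℝ} (hε : 0 < ε) :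
    ∃ (Λ M : ℝ) (g : (Fin d → ℝ) → ℝ), 0 ≤ Λ ∧ State Ω Λ M g ∧
      ∀ u ∈ Ω, g u - ε ≤ psiL Ω rs g u + C u := by
  have hMc : 0 ≤ Mc ∨ Ω = ∅ := by
    rcases Ω.eq_empty_or_nonempty with h | ⟨u, hu⟩
    · exact Or.inr h
    · exact Or.inl ((abs_nonneg _).trans (hC.cls.bdd u hu))
  rcases hMc with hMc | hemp
  swap
  · refine ⟨0, 0, fun _ => 0, le_rfl, State.zero hΩ, ?_⟩
    intro u hu
    rw [hemp] at hu
    exact absurd hu (notMem_empty u)
  have hs : 0 ≤ rs.sum := List.sum_nonneg hr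
  set s := rs.sum with hsdef
  set K := eK s rs * (volume Ω).toReal + (∫ u in Ω, (C u) ^ 2) with hK
  have hK0 : 0 ≤ K := add_nonneg (mul_nonneg (eK_nonneg hs rs hr) ENNReal.toReal_nonneg)
    (integral_nonneg fun u => sq_nonneg _)
  set K' := K / δ ^ d with hK'
  have hδd : 0 < δ ^ d := pow_pos hδ d
  have hK'0 : 0 ≤ K' := div_nonneg hK0 hδd.le
  -- choice of lam
  set lam := min (1 / 2) (min (ε ^ 2 / (64 * (K' + 1))) (ε / (16 * (1 + s)))) with hlam
  have hl0 : 0 < lam := by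
    refine lt_min (by norm_num) (lt_min ?_ ?_) <;> positivity
  have hl1 : lam ≤ 1 / 2 := min_le_left _ _
  have hl2 : lam ≤ ε ^ 2 / (64 * (K' + 1)) := (min_le_right _ _).trans (min_le_left _ _)
  have hl3 : lam ≤ ε / (16 * (1 + s)) := (min_le_right _ _).trans (min_le_right _ _)
  set G := seqg Ω rs C lam with hG
  have hst := seqg_state hΩ hC hΛc hMc rs hr hl0.le (by linarith : lam ≤ 1)
  have hG1 : ∀ n u, G (n + 1) u = (1 - lam) * (psiL Ω rs (G n) u + C u) := fun n u => rfl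
  have hup : ∀ n, ∃ N, ∀ u ∈ Ω, G n u ≤ N := fun n => by
    obtain ⟨Λ, M, _, _, h⟩ := hst n
    exact ⟨M, h.cls.le⟩
  -- energy
  have hE : ∀ n, (∫ u in Ω, (G n u) ^ 2) ≤ K / lam := by
    intro n
    induction n with
    | zero =>
      have : ∀ u, G 0 u = 0 := fun u => rfl
      simp only [this]
      simp only [ne_eq, OfNat.ofNat_ne_zero, not_false_eq_true, zero_pow, integral_zero]
      positivity
    | succ n ih =>
      obtain ⟨Λ, M, hΛ, _, h⟩ := hst n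
      have e := energy hΩ h hΛ hC hΛc hC0 rs hr (hD Λ M _ h)
      have e2 : (∫ u in Ω, (G (n + 1) u) ^ 2) =
          (1 - lam) ^ 2 * (∫ u in Ω, (psiL Ω rs (G n) u + C u) ^ 2) := by
        rw [← integral_const_mul]
        refine setIntegral_congr_fun hΩ.meas fun u _ => ?_
        simp only [hG1]
        ring
      rw [e2]
      have e3 : (∫ u in Ω, (psiL Ω rs (G n) u + C u) ^ 2) ≤ K / lam + K := e.trans (by linarith)
      have e4 : (1 - lam) ^ 2 * (∫ u in Ω, (psiL Ω rs (G n) u + C u) ^ 2) ≤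
          (1 - lam) ^ 2 * (K / lam + K) := mul_le_mul_of_nonneg_left e3 (sq_nonneg _)
      refine e4.trans ?_
      have e5 : K / lam + K = K / lam * (1 + lam) := by
        field_simp
      rw [e5]
      have e6 : (1 - lam) ^ 2 * (1 + lam) ≤ 1 := by nlinarith [mul_pos hl0 hl0]
      have e7 : 0 ≤ K / lam := by positivity
      calc (1 - lam) ^ 2 * (K / lam * (1 + lam)) = K / lam * ((1 - lam) ^ 2 * (1 + lam)) := by ring
        _ ≤ K / lam * 1 := mul_le_mul_of_nonneg_left e6 e7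
        _ = K / lam := mul_one _
  -- floor
  set q := -(Real.sqrt (K' / lam) + 1) with hq
  have hsq0 : 0 ≤ Real.sqrt (K' / lam) := Real.sqrt_nonneg _
  have hq0 : q ≤ 0 := by rw [hq]; linarith
  have hqX : K / lam < q ^ 2 * δ ^ d := by
    have e1 : Real.sqrt (K' / lam) ^ 2 = K' / lam := Real.sq_sqrt (by positivity)
    have e2 : K' / lam < q ^ 2 := by rw [hq]; nlinarith
    have e3 := mul_lt_mul_of_pos_right e2 hδd
    have e4 : K' / lam * δ ^ d = K / lam := by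
      rw [hK']; field_simp
    rwa [e4] at e3
  have hfl : ∀ n, ∀ r ∈ rs, ∀ u ∈ Ω, ∑ a, u a ≤ r → q ≤ G n u := by
    intro n r hrr u hu hur
    obtain ⟨Λ, M, hΛ, _, h⟩ := hst n
    exact floor_of_energy hΩ h hΛ hδ (hE n) hq0 hqX (hΩ.nonneg u hu)
      (hrΩ r hrr u (hΩ.nonneg u hu) hur)
  have hlow : ∀ n, ∀ u ∈ Ω, q - s ≤ G n u := by
    intro n
    induction n with
    | zero => intro u _; show q - s ≤ 0; linarith
    | succ n ih =>
      intro u hu
      obtain ⟨Λ, M, hΛ, _, h⟩ := hst n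
      have e1 := le_psiL_of_floor hΩ h rs (hfl n) hr (c := q) (N := M) (h := G n) le_rfl h.cls.le
        (fun v _ => min_le_left _ _) u hu
      rw [← hsdef, min_eq_right (ih u hu)] at e1
      rw [hG1]
      have e2 := hC0 u hu
      have e3 : (1 - lam) * (q - s) ≤ (1 - lam) * (psiL Ω rs (G n) u + C u) :=
        mul_le_mul_of_nonneg_left (by linarith) (by linarith)
      nlinarith
  -- differences
  obtain ⟨Dd, hDd⟩ : ∃ Dd, ∀ u ∈ Ω, |G 1 u - G 0 u| ≤ Dd := by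
    obtain ⟨Λ, M, hΛ, _, h⟩ := hst 1
    exact ⟨M, fun u hu => by
      have : G 0 u = 0 := rfl
      rw [this, sub_zero]
      exact h.cls.bdd u hu⟩
  have hdiff : ∀ n, ∀ u ∈ Ω, |G (n + 1) u - G n u| ≤ (1 - lam) ^ n * Dd := by
    intro n
    induction n with
    | zero => intro u hu; simpa using hDd u hu
    | succ n ih =>
      intro u hu
      obtain ⟨N1, hN1⟩ := hup (n + 1)
      obtain ⟨N2, hN2⟩ := hup n
      have e1 := psiL_nonexp hΩ rs (M := max N1 N2)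
        (fun v hv => (hN1 v hv).trans (le_max_left _ _))
        (fun v hv => (hN2 v hv).trans (le_max_right _ _)) ih u hu
      rw [hG1 (n + 1), hG1 n]
      have e2 : (1 - lam) * (psiL Ω rs (G (n + 1)) u + C u) - (1 - lam) * (psiL Ω rs (G n) u + C u)
          = (1 - lam) * (psiL Ω rs (G (n + 1)) u - psiL Ω rs (G n) u) := by ring
      rw [e2, abs_mul, abs_of_nonneg (by linarith : (0 : ℝ) ≤ 1 - lam), pow_succ]
      calc (1 - lam) * |psiL Ω rs (G (n + 1)) u - psiL Ω rs (G n) u| ≤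
          (1 - lam) * ((1 - lam) ^ n * Dd) := mul_le_mul_of_nonneg_left e1 (by linarith)
        _ = (1 - lam) ^ n * (1 - lam) * Dd := by ring
  obtain ⟨N, hN⟩ : ∃ N : ℕ, (1 - lam) ^ N * Dd ≤ ε / 2 := by
    have ht : Filter.Tendsto (fun n : ℕ => (1 - lam) ^ n * Dd) Filter.atTop (nhds (0 * Dd)) :=
      (tendsto_pow_atTop_nhds_zero_of_lt_one (by linarith) (by linarith)).mul_const Dd
    rw [zero_mul] at ht
    obtain ⟨N, hN⟩ := (ht.eventually (ge_mem_nhds (show (0 : ℝ) < ε / 2 by linarith))).exists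
    exact ⟨N, hN⟩
  obtain ⟨Λ, M, hΛ, _, hS⟩ := hst N
  refine ⟨Λ, M, G N, hΛ, hS, fun u hu => ?_⟩
  have e1 := hlow (N + 1) u hu
  have e2 := (abs_le.1 (hdiff N u hu)).1
  have e3 := hG1 N u
  set T := psiL Ω rs (G N) u + C u with hT
  -- T = G (N+1) / (1 - lam)
  have hpos : 0 < 1 - lam := by linarith
  -- lam * T ≥ 2 lam (q - s)
  have e4 : 2 * (q - s) ≤ T := by
    by_contra hcon
    replace hcon := not_le.1 hcon
    have : (1 - lam) * T < (1 - lam) * (2 * (q - s)) := mul_lt_mul_of_pos_left hcon hpos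
    have e5 : (1 - lam) * (2 * (q - s)) ≤ q - s := by nlinarith
    linarith
  have e6 : lam * T ≥ lam * (2 * (q - s)) := mul_le_mul_of_nonneg_left e4 hl0.le
  -- lam * |q| small
  have e7 : lam * Real.sqrt (K' / lam) ≤ ε / 8 := by
    have f1 : (lam * Real.sqrt (K' / lam)) ^ 2 ≤ (ε / 8) ^ 2 := by
      rw [mul_pow, Real.sq_sqrt (by positivity)]
      have f2 : lam ^ 2 * (K' / lam) = lam * K' := by field_simp
      rw [f2]
      have f3 : lam * K' ≤ ε ^ 2 / (64 * (K' + 1)) * K' := mul_le_mul_of_nonneg_right hl2 hK'0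
      have f4 : ε ^ 2 / (64 * (K' + 1)) * K' ≤ ε ^ 2 / 64 := by
        rw [div_mul_eq_mul_div, div_le_div_iff₀ (by positivity) (by norm_num)]
        nlinarith [sq_nonneg ε, mul_nonneg (sq_nonneg ε) hK'0]
      calc lam * K' ≤ ε ^ 2 / 64 := f3.trans f4
        _ = (ε / 8) ^ 2 := by ring
    exact le_of_sq_le_sq f1 (by positivity)
  have e8 : lam * (1 + s) ≤ ε / 16 := by
    have := mul_le_mul_of_nonneg_right hl3 (by linarith : (0 : ℝ) ≤ 1 + s)
    refine this.trans (le_of_eq ?_)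
    field_simp
  have e9 : lam * (2 * (q - s)) ≥ -(ε / 2) := by
    rw [hq]
    have : lam * (2 * (-(Real.sqrt (K' / lam) + 1) - s)) =
        -(2 * (lam * Real.sqrt (K' / lam)) + 2 * (lam * (1 + s))) := by ring
    rw [this]
    linarith
  have e10 : T = G (N + 1) u + lam * T := by rw [e3]; ring
  linarith

end Vale.Agent.P209.H856
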