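import Vale.Agent.P209.H856.Shake3

/-! # P209: order properties of the step operator -/

namespace Vale.Agent.P209.H856

open Function MeasureTheory Set

variable {d : ℕ} {Ω : Set (Fin d → ℝ)} {B κ Λ M : ℝ} {f g : (Fin d → ℝ) → ℝ} {a b : Fin d}
  {u v : Fin d → ℝ}

theorem shk_le_const (hM : ∀ u ∈ Ω, f u ≤ M) (hu : u ∈ Ω) : shk Ω a f u ≤ M :=
  shk_le_of_forall hu fun _ _ hxu => (min_le_right _ _).trans (hM _ hxu)

theorem shkL_le_const (l : List (Fin d)) : ∀ {f : (Fin d → ℝ) → ℝ}, (∀ u ∈ Ω, f u ≤ M) →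
    ∀ u ∈ Ω, shkL Ω l f u ≤ M := by
  induction l with
  | nil => intro f hf u hu; exact hf u hu
  | cons a l ih =>
    intro f hf u hu
    rw [shkL_cons]
    exact ih (fun v hv => shk_le_const hf hv) u hu

theorem shkL_mono (hΩ : DomOK Ω B κ) (l : List (Fin d)) : ∀ {f g : (Fin d → ℝ) → ℝ},
    (∀ u ∈ Ω, g u ≤ M) → (∀ u ∈ Ω, f u ≤ g u) → ∀ u ∈ Ω, shkL Ω l f u ≤ shkL Ω l g u := by
  induction l with
  | nil => intro f g _ hfg u hu; exact hfg u hu
  | cons a l ih =>
    intro f g hg hfg u hu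
    rw [shkL_cons, shkL_cons]
    exact ih (fun v hv => shk_le_const hg hv) (fun v hv => shk_mono hΩ hg hfg hv) u hu

theorem shkL_congr (hΩ : DomOK Ω B κ) (l : List (Fin d)) : ∀ {f g : (Fin d → ℝ) → ℝ},
    (∀ u ∈ Ω, f u = g u) → ∀ u ∈ Ω, shkL Ω l f u = shkL Ω l g u := by
  induction l with
  | nil => intro f g hfg u hu; exact hfg u hu
  | cons a l ih =>
    intro f g hfg u hu
    rw [shkL_cons, shkL_cons]
    exact ih (fun v hv => shk_congr hv hΩ hfg) u hu

theorem shkL_add_const (hΩ : DomOK Ω B κ) (l : List (Fin d)) (c : ℝ) :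
    ∀ {f : (Fin d → ℝ) → ℝ}, (∀ u ∈ Ω, f u ≤ M) →
      ∀ u ∈ Ω, shkL Ω l (fun v => f v + c) u = shkL Ω l f u + c := by
  induction l with
  | nil => intro f _ u _; rfl
  | cons a l ih =>
    intro f hf u hu
    rw [shkL_cons, shkL_cons, shkL_congr hΩ l (g := fun v => shk Ω a f v + c)
      (fun v hv => shk_add_const hf hv c) u hu]
    exact ih (fun v hv => shk_le_const hf hv) u hu

theorem shkL_of_anti (hΩ : DomOK Ω B κ) (l : List (Fin d)) (hM : ∀ u ∈ Ω, f u ≤ M)
    (ha : ∀ a, AntiDir Ω a f) : ∀ u ∈ Ω, shkL Ω l f u = f u := by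
  induction l with
  | nil => intro u _; rfl
  | cons a l ih =>
    intro u hu
    rw [shkL_cons, shkL_congr hΩ l (fun v hv => shk_of_anti hΩ hM (ha a) hv) u hu]
    exact ih u hu

theorem psi_mono (hΩ : DomOK Ω B κ) (r : ℝ) (hg : ∀ u ∈ Ω, g u ≤ M) (hfg : ∀ u ∈ Ω, f u ≤ g u)
    (u : Fin d → ℝ) (hu : u ∈ Ω) : psi Ω r f u ≤ psi Ω r g u :=
  shkL_mono hΩ _ (M := M) (fun v hv => by have := hg v hv; have := tent_nonneg r v; linarith)
    (fun v hv => by have := hfg v hv; linarith) u hu

theorem psi_congr (hΩ : DomOK Ω B κ) (r : ℝ) (hfg : ∀ u ∈ Ω, f u = g u) (u : Fin d → ℝ)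
    (hu : u ∈ Ω) : psi Ω r f u = psi Ω r g u :=
  shkL_congr hΩ _ (fun v hv => by rw [hfg v hv]) u hu

theorem psi_add_const (hΩ : DomOK Ω B κ) (r : ℝ) (hf : ∀ u ∈ Ω, f u ≤ M) (c : ℝ)
    (u : Fin d → ℝ) (hu : u ∈ Ω) : psi Ω r (fun v => f v + c) u = psi Ω r f u + c := by
  have h := shkL_add_const hΩ (List.finRange d) c (M := M) (f := fun v => f v - tent r v)
    (fun v hv => by have := hf v hv; have := tent_nonneg r v; linarith) u hu
  unfold psi
  rw [← h]
  refine shkL_congr hΩ _ (fun v _ => by ring) u hu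

theorem psi_le_const (r : ℝ) (hf : ∀ u ∈ Ω, f u ≤ M) (u : Fin d → ℝ) (hu : u ∈ Ω) :
    psi Ω r f u ≤ M :=
  shkL_le_const _ (fun v hv => by have := hf v hv; have := tent_nonneg r v; linarith) u hu

theorem State.psi_le (hΩ : DomOK Ω B κ) (hg : State Ω Λ M g) (r : ℝ) (u : Fin d → ℝ)
    (hu : u ∈ Ω) : H856.psi Ω r g u ≤ g u := by
  have h1 := shkL_mono hΩ (List.finRange d) (M := M) (f := fun v => g v - tent r v) (g := g)
    hg.cls.le (fun v hv => by have := tent_nonneg r v; linarith) u hu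
  rw [shkL_of_anti hΩ _ hg.cls.le hg.anti u hu] at h1
  exact h1

theorem State.le_psi (hΩ : DomOK Ω B κ) (hg : State Ω Λ M g) {r : ℝ} (hr : 0 ≤ r)
    (u : Fin d → ℝ) (hu : u ∈ Ω) : g u - r ≤ H856.psi Ω r g u := by
  have ha : ∀ a, AntiDir Ω a (fun v => g v - r) := fun a v hv h hh hv' => by
    have := hg.anti a v hv h hh hv'
    simpa using this
  have h1 := shkL_mono hΩ (List.finRange d) (M := M) (f := fun v => g v - r)
    (g := fun v => g v - tent r v)
    (fun v hv => by have := hg.cls.le v hv; have := tent_nonneg r v; linarith)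
    (fun v hv => by have := tent_le (u := v) hr (hΩ.nonneg v hv); linarith) u hu
  rw [shkL_of_anti hΩ _ (M := M) (fun v hv => by have := hg.cls.le v hv; linarith) ha u hu] at h1
  exact h1

theorem psiL_cons (r : ℝ) (rs : List ℝ) (g : (Fin d → ℝ) → ℝ) :
    psiL Ω (r :: rs) g = psiL Ω rs (psi Ω r g) := rfl

theorem psiL_mono (hΩ : DomOK Ω B κ) (rs : List ℝ) : ∀ {f g : (Fin d → ℝ) → ℝ},
    (∀ u ∈ Ω, g u ≤ M) → (∀ u ∈ Ω, f u ≤ g u) → ∀ u ∈ Ω, psiL Ω rs f u ≤ psiL Ω rs g u := by
  induction rs with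
  | nil => intro f g _ hfg u hu; exact hfg u hu
  | cons r rs ih =>
    intro f g hg hfg u hu
    rw [psiL_cons, psiL_cons]
    exact ih (fun v hv => psi_le_const r hg v hv) (fun v hv => psi_mono hΩ r hg hfg v hv) u hu

theorem psiL_congr (hΩ : DomOK Ω B κ) (rs : List ℝ) : ∀ {f g : (Fin d → ℝ) → ℝ},
    (∀ u ∈ Ω, f u = g u) → ∀ u ∈ Ω, psiL Ω rs f u = psiL Ω rs g u := by
  induction rs with
  | nil => intro f g hfg u hu; exact hfg u hu
  | cons r rs ih =>
    intro f g hfg u hu
    rw [psiL_cons, psiL_cons]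
    exact ih (fun v hv => psi_congr hΩ r hfg v hv) u hu

theorem psiL_add_const (hΩ : DomOK Ω B κ) (rs : List ℝ) (c : ℝ) :
    ∀ {f : (Fin d → ℝ) → ℝ}, (∀ u ∈ Ω, f u ≤ M) →
      ∀ u ∈ Ω, psiL Ω rs (fun v => f v + c) u = psiL Ω rs f u + c := by
  induction rs with
  | nil => intro f _ u _; rfl
  | cons r rs ih =>
    intro f hf u hu
    rw [psiL_cons, psiL_cons, psiL_congr hΩ rs (g := fun v => psi Ω r f v + c)
      (fun v hv => psi_add_const hΩ r hf c v hv) u hu]
    exact ih (fun v hv => psi_le_const r hf v hv) u hu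

theorem psiL_nonexp (hΩ : DomOK Ω B κ) (rs : List ℝ) {c : ℝ} (hf : ∀ u ∈ Ω, f u ≤ M)
    (hg : ∀ u ∈ Ω, g u ≤ M) (h : ∀ u ∈ Ω, |f u - g u| ≤ c) (u : Fin d → ℝ) (hu : u ∈ Ω) :
    |psiL Ω rs f u - psiL Ω rs g u| ≤ c := by
  have h1 := psiL_mono hΩ rs (M := M + c) (f := f) (g := fun v => g v + c)
    (fun v hv => by have := hg v hv; linarith)
    (fun v hv => by have := (abs_le.1 (h v hv)).2; linarith) u hu
  have h2 := psiL_mono hΩ rs (M := M + c) (f := g) (g := fun v => f v + c)
    (fun v hv => by have := hf v hv; linarith)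
    (fun v hv => by have := (abs_le.1 (h v hv)).1; linarith) u hu
  rw [psiL_add_const hΩ rs c hg u hu] at h1
  rw [psiL_add_const hΩ rs c hf u hu] at h2
  exact abs_le.2 ⟨by linarith, by linarith⟩

theorem State.psiL (hΩ : DomOK Ω B κ) (rs : List ℝ) : ∀ {Λ M : ℝ} {g : (Fin d → ℝ) → ℝ},
    State Ω Λ M g → 0 ≤ Λ → (∀ r ∈ rs, 0 ≤ r) →
      State Ω (Λ + rs.length * (d * (1 + κ))) (M + rs.sum) (psiL Ω rs g) := by
  induction rs with
  | nil => intro Λ M g hg _ _; simpa [H856.psiL] using hg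
  | cons r rs ih =>
    intro Λ M g hg hΛ hr
    rw [psiL_cons]
    have hκ := hΩ.kappa
    have h := ih (hg.psi hΩ hΛ (hr r (by simp))) (by positivity) (fun r' hr' => hr r' (by simp [hr']))
    refine h.mono (le_of_eq ?_) (le_of_eq ?_)
    · push_cast [List.length_cons]
      ring
    · rw [List.sum_cons]; ring

theorem State.psiL_le (hΩ : DomOK Ω B κ) (rs : List ℝ) : ∀ {Λ M : ℝ} {g : (Fin d → ℝ) → ℝ},
    State Ω Λ M g → 0 ≤ Λ → (∀ r ∈ rs, 0 ≤ r) → ∀ u ∈ Ω, H856.psiL Ω rs g u ≤ g u := by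
  induction rs with
  | nil => intro Λ M g _ _ _ u _; exact le_rfl
  | cons r rs ih =>
    intro Λ M g hg hΛ hr u hu
    rw [psiL_cons]
    have hκ := hΩ.kappa
    exact (ih (hg.psi hΩ hΛ (hr r (by simp))) (by positivity)
      (fun r' hr' => hr r' (by simp [hr'])) u hu).trans (hg.psi_le hΩ r u hu)

/-- The lower bound for all steps. -/
theorem le_psiL_of_floor (hΩ : DomOK Ω B κ) (hg : State Ω Λ M g) (rs : List ℝ) {q : ℝ}
    (hq : ∀ r ∈ rs, ∀ u ∈ Ω, ∑ a, u a ≤ r → q ≤ g u) (hr : ∀ r ∈ rs, 0 ≤ r) :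
    ∀ {c N : ℝ} {h : (Fin d → ℝ) → ℝ}, c ≤ q → (∀ u ∈ Ω, h u ≤ N) →
      (∀ u ∈ Ω, min (g u) c ≤ h u) → ∀ u ∈ Ω, min (g u) (c - rs.sum) ≤ psiL Ω rs h u := by
  induction rs with
  | nil => intro c N h _ _ hh u hu; simpa [H856.psiL] using hh u hu
  | cons r rs ih =>
    intro c N h hc hN hh u hu
    rw [psiL_cons]
    have hr0 := hr r (by simp)
    have step : ∀ v ∈ Ω, min (g v) (c - r) ≤ psi Ω r h v := by
      have ha : ∀ a, AntiDir Ω a (fun v => min (g v) (c - r)) := fun a v hv t ht hv' => by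
        have := hg.anti a v hv t ht hv'
        exact min_le_min this le_rfl
      have h0 := shkL_mono hΩ (List.finRange d) (M := N) (f := fun v => min (g v) (c - r))
        (g := fun v => h v - tent r v)
        (fun v hv => by have := hN v hv; have := tent_nonneg r v; linarith)
        (fun v hv => by
          have h1 := hh v hv
          have h2 := tent_le (u := v) hr0 (hΩ.nonneg v hv)
          by_cases hs : ∑ a, v a ≤ r
          · have h3 := hq r (by simp) v hv hs
            rw [min_eq_right (hc.trans h3)] at h1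
            exact (min_le_right _ _).trans (by linarith)
          · have h4 : tent r v = 0 := by
              unfold tent
              exact max_eq_right (by linarith [not_le.1 hs])
            rw [h4, sub_zero]
            exact le_trans (min_le_min le_rfl (by linarith)) h1)
      intro v hv
      have h5 := h0 v hv
      rw [shkL_of_anti hΩ _ (M := M) (fun w hw => (min_le_left _ _).trans (hg.cls.le w hw)) ha v hv]
        at h5
      exact h5
    have := ih (fun r' hr' => hq r' (by simp [hr'])) (fun r' hr' => hr r' (by simp [hr']))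
      (c := c - r) (N := N) (h := psi Ω r h) (by linarith) (fun v hv => psi_le_const r hN v hv)
      step u hu
    rw [List.sum_cons]
    have e : c - (r + rs.sum) = c - r - rs.sum := by ring
    rw [e]
    exact this

theorem State.add (hf : State Ω Λ M f) {Λ' M' : ℝ} (hg : State Ω Λ' M' g) :
    State Ω (Λ + Λ') (M + M') (fun u => f u + g u) where
  cls := {
    conc := hf.cls.conc.add hg.cls.conc
    bdd := fun u hu => (abs_add_le _ _).trans (add_le_add (hf.cls.bdd u hu) (hg.cls.bdd u hu))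
    up := fun u hu b h hh hv => by
      have h1 := hf.anti b u hu h hh hv
      have h2 := hg.anti b u hu h hh hv
      linarith
    lo := fun u hu b h hh hv => by
      have h1 := hf.cls.lo u hu b h hh hv
      have h2 := hg.cls.lo u hu b h hh hv
      linarith }
  anti := fun b u hu h hh hv => add_le_add (hf.anti b u hu h hh hv) (hg.anti b u hu h hh hv)

theorem State.smul (hf : State Ω Λ M f) (hΛ : 0 ≤ Λ) (hM : 0 ≤ M) {c : ℝ} (hc : 0 ≤ c)
    (hc1 : c ≤ 1) : State Ω Λ M (fun u => c * f u) where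
  cls := {
    conc := hf.cls.conc.smul hc
    bdd := fun u hu => by
      rw [abs_mul, abs_of_nonneg hc]
      have := hf.cls.bdd u hu
      have h0 := abs_nonneg (f u)
      nlinarith
    up := fun u hu b h hh hv => by
      have h1 := hf.anti b u hu h hh hv
      have := mul_le_mul_of_nonneg_left h1 hc
      linarith
    lo := fun u hu b h hh hv => by
      have h1 := hf.cls.lo u hu b h hh hv
      have h2 := mul_le_mul_of_nonneg_left h1 hc
      have h3 : c * (Λ * h) ≤ 1 * (Λ * h) := mul_le_mul_of_nonneg_right hc1 (mul_nonneg hΛ hh)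
      linarith }
  anti := fun b u hu h hh hv => mul_le_mul_of_nonneg_left (hf.anti b u hu h hh hv) hc

theorem State.zero (hΩ : DomOK Ω B κ) : State Ω 0 0 (fun _ => (0 : ℝ)) where
  cls := {
    conc := concaveOn_const 0 hΩ.conv
    bdd := fun u _ => by simp
    up := fun u _ b h hh _ => by simpa using hh
    lo := fun u _ b h hh _ => by simp }
  anti := fun b u _ h _ _ => le_rfl

/-- States are antitone. -/
theorem State.antitone (hΩ : DomOK Ω B κ) (hf : State Ω Λ M f) {w u : Fin d → ℝ} (hu : u ∈ Ω)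
    (hw : ∀ a, 0 ≤ w a) (hwu : ∀ a, w a ≤ u a) : f u ≤ f w := by
  classical
  have key : ∀ s : Finset (Fin d), f (s.piecewise u w) ≤ f w := by
    intro s
    induction s using Finset.induction_on with
    | empty => simp
    | insert b s hb ih =>
      have hle : ∀ (t : Finset (Fin d)) (a : Fin d), t.piecewise u w a ≤ u a := by
        intro t a
        by_cases ha : a ∈ t
        · simp [Finset.piecewise_eq_of_mem _ _ _ ha]
        · simp only [Finset.piecewise_eq_of_notMem _ _ _ ha]; exact hwu a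
      have hge : ∀ (t : Finset (Fin d)) (a : Fin d), 0 ≤ t.piecewise u w a := by
        intro t a
        by_cases ha : a ∈ t
        · simp only [Finset.piecewise_eq_of_mem _ _ _ ha]; exact (hw a).trans (hwu a)
        · simp only [Finset.piecewise_eq_of_notMem _ _ _ ha]; exact hw a
      have hmem : ∀ t : Finset (Fin d), t.piecewise u w ∈ Ω := fun t =>
        hΩ.down u hu _ (hge t) (hle t)
      have hpb : s.piecewise u w b = w b := Finset.piecewise_eq_of_notMem _ _ _ hb
      have e : (insert b s).piecewise u w =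
          update (s.piecewise u w) b ((s.piecewise u w) b + (u b - w b)) := by
        rw [Finset.piecewise_insert, hpb]
        congr 1
        ring
      have h1 := hf.anti b _ (hmem s) (u b - w b) (by linarith [hwu b]) (by rw [← e]; exact hmem _)
      rw [← e] at h1
      exact h1.trans ih
  have := key Finset.univ
  rwa [Finset.piecewise_univ] at this

end Vale.Agent.P209.H856
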