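import Vale.Agent.P209.H856.Shake5
import Vale.Agent.P209.H519.Dom
import Vale.Agent.P209.H578.Defs

/-! # P209: the concrete domains and the model states -/

namespace Vale.Agent.P209.H856

open Function MeasureTheory Set
open Vale.Agent.P209.H519 (Omc Omi domA domB)

variable {d : ℕ}

theorem sum_mul_update (c : Fin d → ℝ) (u : Fin d → ℝ) (a : Fin d) (y : ℝ) :
    ∑ b, c b * update u a y b = ∑ b, c b * u b + c a * (y - u a) := by
  have h : ∀ b, c b * update u a y b = c b * u b + if b = a then c a * (y - u a) else 0 := by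
    intro b
    by_cases hb : b = a
    · subst hb; simp; ring
    · simp [hb]
  simp only [h, Finset.sum_add_distrib, Finset.sum_ite_eq', Finset.mem_univ, if_true]

theorem coord_le_sum {c : Fin d → ℝ} (hc : ∀ a, 0 < c a) {u : Fin d → ℝ} (hu : ∀ a, 0 ≤ u a)
    {R : ℝ} (h : ∑ a, c a * u a < R) (a : Fin d) : u a ≤ ∑ b, R / c b := by
  have h1 : c a * u a ≤ ∑ b, c b * u b :=
    Finset.single_le_sum (f := fun b => c b * u b) (fun b _ => mul_nonneg (hc b).le (hu b))
      (Finset.mem_univ a)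
  have hR : 0 < R := lt_of_le_of_lt (Finset.sum_nonneg fun b _ => mul_nonneg (hc b).le (hu b)) h
  have h2 : u a ≤ R / c a := by
    rw [le_div_iff₀ (hc a)]
    linarith [mul_comm (c a) (u a)]
  exact h2.trans (Finset.single_le_sum (f := fun b => R / c b)
    (fun b _ => (div_pos hR (hc b)).le) (Finset.mem_univ a))

theorem domOK_of {c : Fin d → ℝ} (hc : ∀ a, 0 < c a) {R : ℝ} {κ : ℝ} (hκ : 0 ≤ κ)
    (hcκ : ∀ a b, c b ≤ κ * c a) (S : Set (Fin d → ℝ))
    (hS : ∃ (i : Option (Fin d)) (ρ : ℝ), S = {u | (∀ a, 0 ≤ u a) ∧ ∑ a, c a * u a < R ∧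
      ∀ j ∈ i, u j < ρ}) : DomOK S (∑ b, R / c b) κ := by
  obtain ⟨i, ρ, rfl⟩ := hS
  refine ⟨?_, fun u hu => hu.1, fun u hu a => coord_le_sum hc hu.1 hu.2.1 a, ?_, ?_, hκ, ?_⟩
  · intro u hu v hv s t hs ht hst
    refine ⟨fun a => ?_, ?_, fun j hj => ?_⟩
    · have := hu.1 a
      have := hv.1 a
      simp only [Pi.add_apply, Pi.smul_apply, smul_eq_mul]
      positivity
    · have e : ∑ a, c a * (s • u + t • v) a = s * ∑ a, c a * u a + t * ∑ a, c a * v a := by
        rw [Finset.mul_sum, Finset.mul_sum, ← Finset.sum_add_distrib]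
        refine Finset.sum_congr rfl fun a _ => ?_
        simp only [Pi.add_apply, Pi.smul_apply, smul_eq_mul]
        ring
      rw [e]
      have h1 := hu.2.1
      have h2 := hv.2.1
      rcases hs.eq_or_lt with h | h
      · have ht1 : t = 1 := by linarith
        rw [← h, ht1]; linarith
      · have h3 := mul_lt_mul_of_pos_left h1 h
        have h4 := mul_le_mul_of_nonneg_left h2.le ht
        have e2 : s * R + t * R = R := by rw [← add_mul, hst, one_mul]
        linarith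
    · simp only [Pi.add_apply, Pi.smul_apply, smul_eq_mul]
      have h1 := hu.2.2 j hj
      have h2 := hv.2.2 j hj
      rcases hs.eq_or_lt with h | h
      · have ht1 : t = 1 := by linarith
        rw [← h, ht1]; linarith
      · have h3 := mul_lt_mul_of_pos_left h1 h
        have h4 := mul_le_mul_of_nonneg_left h2.le ht
        have e2 : s * ρ + t * ρ = ρ := by rw [← add_mul, hst, one_mul]
        linarith
  · intro u hu v hv hvu
    refine ⟨hv, lt_of_le_of_lt (Finset.sum_le_sum fun a _ =>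
      mul_le_mul_of_nonneg_left (hvu a) (hc a).le) hu.2.1, fun j hj => (hvu j).trans_lt (hu.2.2 j hj)⟩
  · have m1 : MeasurableSet {u : Fin d → ℝ | ∀ a, 0 ≤ u a} := by
      rw [Set.ofPred_forall]
      exact MeasurableSet.iInter fun a => measurableSet_le measurable_const (measurable_pi_apply a)
    have m2 : MeasurableSet {u : Fin d → ℝ | ∑ a, c a * u a < R} := by
      refine measurableSet_lt ?_ measurable_const
      fun_prop
    have m3 : MeasurableSet {u : Fin d → ℝ | ∀ j ∈ i, u j < ρ} := by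
      cases i with
      | none => simp
      | some j => simpa using measurableSet_lt (measurable_pi_apply j) measurable_const
    exact m1.inter (m2.inter m3)
  · intro u hu a b hba h hh h0 y hy hyu
    have n0 := h0.1
    have hab : a ≠ b := fun e => hba e.symm
    have eb : ∀ z : ℝ, update (update u b (u b + h)) a z b = u b + h := by
      intro z; rw [update_of_ne hba, update_self]
    refine ⟨fun e => ?_, ?_, fun j hj => ?_⟩
    · by_cases he : e = a
      · subst he; simpa using hy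
      · have := n0 e
        simpa [update_of_ne he] using this
    · rw [sum_mul_update, sum_mul_update, update_of_ne hab]
      have h1 := hu.2.1
      have h2 : c a * (y - u a) ≤ c a * (-(κ * h)) :=
        mul_le_mul_of_nonneg_left (by linarith) (hc a).le
      have h3 : c b * h ≤ κ * c a * h := mul_le_mul_of_nonneg_right (hcκ a b) hh
      have e1 : c b * (u b + h - u b) = c b * h := by ring
      rw [e1]
      nlinarith
    · by_cases he : j = a
      · subst he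
        rw [update_self]
        have := hu.2.2 j hj
        have := mul_nonneg hκ hh
        linarith
      · have := h0.2.2 j hj
        rw [update_of_ne he] at this ⊢
        exact this

theorem Omc_eq (c : Fin d → ℝ) (R : ℝ) : (Omc c R : Set (Fin d → ℝ)) =
    {u | (∀ a, 0 ≤ u a) ∧ ∑ a, c a * u a < R ∧ ∀ j ∈ (none : Option (Fin d)), u j < 0} := by
  ext u
  simp [Omc]

theorem Omi_eq (i : Fin d) (c : Fin d → ℝ) (R ρ : ℝ) : (Omi i c R ρ : Set (Fin d → ℝ)) =
    {u | (∀ a, 0 ≤ u a) ∧ ∑ a, c a * u a < R ∧ ∀ j ∈ some i, u j < ρ} := by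
  ext u
  simp [Omi]

theorem domOK_Omc {c : Fin d → ℝ} (hc : ∀ a, 0 < c a) (R : ℝ) {κ : ℝ} (hκ : 0 ≤ κ)
    (hcκ : ∀ a b, c b ≤ κ * c a) : DomOK (Omc c R) (∑ b, R / c b) κ :=
  domOK_of hc hκ hcκ _ ⟨none, 0, Omc_eq c R⟩

theorem domOK_Omi (i : Fin d) {c : Fin d → ℝ} (hc : ∀ a, 0 < c a) (R ρ : ℝ) {κ : ℝ} (hκ : 0 ≤ κ)
    (hcκ : ∀ a b, c b ≤ κ * c a) : DomOK (Omi i c R ρ) (∑ b, R / c b) κ :=
  domOK_of hc hκ hcκ _ ⟨some i, ρ, Omi_eq i c R ρ⟩

/-- Some `κ` always works. -/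
theorem exists_kappa {c : Fin d → ℝ} (hc : ∀ a, 0 < c a) :
    ∃ κ : ℝ, 0 ≤ κ ∧ ∀ a b, c b ≤ κ * c a := by
  refine ⟨(∑ b, c b) * ∑ a, (c a)⁻¹, ?_, fun a b => ?_⟩
  · exact mul_nonneg (Finset.sum_nonneg fun b _ => (hc b).le)
      (Finset.sum_nonneg fun a _ => (inv_pos.2 (hc a)).le)
  · have h1 : c b ≤ ∑ b, c b := Finset.single_le_sum (fun b _ => (hc b).le) (Finset.mem_univ b)
    have h2 : (c a)⁻¹ ≤ ∑ a, (c a)⁻¹ :=
      Finset.single_le_sum (f := fun a => (c a)⁻¹) (fun b _ => (inv_pos.2 (hc b)).le)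
        (Finset.mem_univ a)
    have h3 : 1 ≤ (∑ a, (c a)⁻¹) * c a := by
      have := mul_le_mul_of_nonneg_right h2 (hc a).le
      rwa [inv_mul_cancel₀ (hc a).ne'] at this
    have h4 : 0 ≤ ∑ b, c b := Finset.sum_nonneg fun b _ => (hc b).le
    calc c b ≤ (∑ b, c b) * 1 := by linarith
      _ ≤ (∑ b, c b) * ((∑ a, (c a)⁻¹) * c a) := mul_le_mul_of_nonneg_left h3 h4
      _ = _ := by ring

/-- The affine function of the model is a state. -/
theorem state_affine {Ω : Set (Fin d → ℝ)} (hΩ : Convex ℝ Ω) {c : Fin d → ℝ} (hc : ∀ a, 0 < c a)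
    {R : ℝ} (hR : ∀ u ∈ Ω, (∀ a, 0 ≤ u a) ∧ ∑ a, c a * u a < R) {k : ℝ} (hk : 0 ≤ k) :
    State Ω (k * ∑ a, c a) (k * R) (fun u => k * (R - ∑ a, c a * u a)) := by
  have hup : ∀ (u : Fin d → ℝ) (b : Fin d) (h : ℝ),
      k * (R - ∑ a, c a * update u b (u b + h) a) = k * (R - ∑ a, c a * u a) - k * c b * h := by
    intro u b h
    rw [sum_mul_update]
    ring
  have hcs : ∀ b, c b ≤ ∑ a, c a := fun b =>
    Finset.single_le_sum (fun b _ => (hc b).le) (Finset.mem_univ b)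
  refine ⟨⟨⟨hΩ, ?_⟩, ?_, ?_, ?_⟩, ?_⟩
  · intro u _ v _ s t hs ht hst
    have e : ∑ a, c a * (s • u + t • v) a = s * ∑ a, c a * u a + t * ∑ a, c a * v a := by
      rw [Finset.mul_sum, Finset.mul_sum, ← Finset.sum_add_distrib]
      refine Finset.sum_congr rfl fun a _ => ?_
      simp only [Pi.add_apply, Pi.smul_apply, smul_eq_mul]
      ring
    show s * (k * (R - ∑ a, c a * u a)) + t * (k * (R - ∑ a, c a * v a)) ≤
      k * (R - ∑ a, c a * (s • u + t • v) a)
    rw [e]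
    have e2 : R = s * R + t * R := by rw [← add_mul, hst, one_mul]
    refine le_of_eq ?_
    calc s * (k * (R - ∑ a, c a * u a)) + t * (k * (R - ∑ a, c a * v a))
        = k * ((s * R + t * R) - (s * ∑ a, c a * u a + t * ∑ a, c a * v a)) := by ring
      _ = _ := by rw [← e2]
  · intro u hu
    obtain ⟨h0, h1⟩ := hR u hu
    have h2 : 0 ≤ ∑ a, c a * u a := Finset.sum_nonneg fun a _ => mul_nonneg (hc a).le (h0 a)
    rw [abs_of_nonneg (mul_nonneg hk (by linarith))]
    exact mul_le_mul_of_nonneg_left (by linarith) hk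
  · intro u _ b h hh _
    rw [hup]
    have := mul_nonneg (mul_nonneg hk (hc b).le) hh
    linarith
  · intro u _ b h hh _
    rw [hup]
    have := mul_le_mul_of_nonneg_right (mul_le_mul_of_nonneg_left (hcs b) hk) hh
    linarith
  · intro a u _ h hh _
    simp only [hup]
    have := mul_nonneg (mul_nonneg hk (hc a).le) hh
    linarith

/-- Room around the simplices. -/
theorem room {c : Fin d → ℝ} (hc : ∀ a, 0 < c a) {R r : ℝ} (hrR : ∀ a, c a * r < R)
    (hR : 0 < R) : ∃ δ : ℝ, 0 < δ ∧ ∀ v : Fin d → ℝ, (∀ a, 0 ≤ v a) → ∑ a, v a ≤ r →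
      ∑ a, c a * (v a + δ) < R := by
  -- the maximum of `c a * r`
  obtain ⟨m, hm, hmR⟩ : ∃ m : ℝ, (∀ a, c a * r ≤ m) ∧ m < R := by
    rcases isEmpty_or_nonempty (Fin d) with h | h
    · exact ⟨0, fun a => h.elim a, hR⟩
    · obtain ⟨a, ha⟩ := Finite.exists_max (fun a => c a * r)
      exact ⟨_, ha, hrR a⟩
  have hs : 0 ≤ ∑ a, c a := Finset.sum_nonneg fun a _ => (hc a).le
  refine ⟨(R - max m 0) / (2 * (1 + ∑ a, c a)), ?_, fun v hv hvr => ?_⟩
  · have : max m 0 < R := max_lt hmR hR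
    have h2 : 0 < R - max m 0 := by linarith
    positivity
  · set δ := (R - max m 0) / (2 * (1 + ∑ a, c a)) with hδ
    have hmax : max m 0 < R := max_lt hmR hR
    have h1 : ∑ a, c a * (v a + δ) = ∑ a, c a * v a + (∑ a, c a) * δ := by
      rw [Finset.sum_mul, ← Finset.sum_add_distrib]
      exact Finset.sum_congr rfl fun a _ => by ring
    have h2 : ∑ a, c a * v a ≤ max m 0 := by
      have hv0 : 0 ≤ ∑ a, v a := Finset.sum_nonneg fun a _ => hv a
      have hr0 : 0 ≤ r := hv0.trans hvr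
      rcases hr0.eq_or_lt with h | h
      · have hz : ∀ a, v a = 0 := by
          intro a
          have h5 : v a ≤ ∑ a, v a := Finset.single_le_sum (fun b _ => hv b) (Finset.mem_univ a)
          have := hv a
          linarith
        simp [hz]
      · have h5 : ∀ a, c a * v a ≤ m / r * v a := by
          intro a
          refine mul_le_mul_of_nonneg_right ?_ (hv a)
          rw [le_div_iff₀ h]
          exact hm a
        have h6 : 0 ≤ max m 0 / r := div_nonneg (le_max_right _ _) h.le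
        calc ∑ a, c a * v a ≤ ∑ a, m / r * v a := Finset.sum_le_sum fun a _ => h5 a
          _ = m / r * ∑ a, v a := by rw [Finset.mul_sum]
          _ ≤ max m 0 / r * ∑ a, v a := by
            refine mul_le_mul_of_nonneg_right ?_ hv0
            gcongr
            exact le_max_left _ _
          _ ≤ max m 0 / r * r := mul_le_mul_of_nonneg_left hvr h6
          _ = max m 0 := by field_simp
    have h3 : (∑ a, c a) * δ ≤ (R - max m 0) / 2 := by
      rw [hδ]
      have h7 : 0 < 1 + ∑ a, c a := by linarith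
      rw [mul_div_assoc', div_le_div_iff₀ (by positivity) (by norm_num)]
      nlinarith
    rw [h1]
    linarith

/-- All the small choices at once (case (A)). -/
theorem choiceA {c : Fin d → ℝ} {R : ℝ} (hR : 0 < R) (N : ℕ) (rs : List ℝ)
    (hrs : ∀ r ∈ rs, 0 < r ∧ ∀ a, c a * r < R)
    (hvol : (rs.map fun r => r ^ N).sum < R ^ N) :
    ∃ e : ℝ, 0 < e ∧ 0 < R - e ∧ (∀ r ∈ rs, ∀ a, c a * (r + e) < R - e) ∧
      (rs.map fun r => (r + e) ^ N).sum < (R - e) ^ N := by
  have h1 : ∀ᶠ e in nhds (0 : ℝ), 0 < R - e := by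
    refine (continuous_const.sub continuous_id).continuousAt.eventually_const_lt ?_
    simpa using hR
  have h2 : ∀ᶠ e in nhds (0 : ℝ), ∀ r ∈ {r | r ∈ rs}, ∀ a, c a * (r + e) < R - e := by
    rw [Filter.eventually_all_finite rs.finite_toSet]
    intro r hr
    rw [Filter.eventually_all]
    intro a
    have hc1 : Continuous fun e : ℝ => c a * (r + e) := by fun_prop
    have hc2 : Continuous fun e : ℝ => R - e := by fun_prop
    refine hc1.continuousAt.eventually_lt hc2.continuousAt ?_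
    simpa using (hrs r hr).2 a
  have hcs : ∀ l : List ℝ, Continuous fun e : ℝ => (l.map fun r => (r + e) ^ N).sum := by
    intro l
    induction l with
    | nil => simpa using continuous_const
    | cons r l ih =>
      simp only [List.map_cons, List.sum_cons]
      exact ((continuous_const.add continuous_id).pow N).add ih
  have h3 : ∀ᶠ e in nhds (0 : ℝ), (rs.map fun r => (r + e) ^ N).sum < (R - e) ^ N := by
    have hc2 : Continuous fun e : ℝ => (R - e) ^ N := by fun_prop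
    refine (hcs rs).continuousAt.eventually_lt hc2.continuousAt ?_
    simpa using hvol
  have h4 := (h1.and (h2.and h3)).filter_mono (nhdsWithin_le_nhds (s := Ioi (0 : ℝ)))
  obtain ⟨e, he, he0⟩ := (h4.and self_mem_nhdsWithin).exists
  exact ⟨e, he0, he.1, he.2.1, he.2.2⟩

/-- All the small choices at once (case (B)). -/
theorem choiceB {c : Fin d → ℝ} {R r0 : ℝ} (hr0R : r0 < R) (N : ℕ)
    (rs : List ℝ) (hrs : ∀ r ∈ rs, 0 < r ∧ r + r0 < R ∧ ∀ a, c a * r < R)
    (hvol : r0 ^ N + (rs.map fun r => r ^ N).sum < R ^ N) (m : ℝ) (hm : 0 < m) :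
    ∃ e : ℝ, 0 < e ∧ e < m ∧ r0 + e < R - e ∧ (∀ r ∈ rs, (r + e) + (r0 + e) < R - e) ∧
      (∀ r ∈ rs, ∀ a, c a * (r + e) < R - e) ∧
      (r0 + e) ^ N + (rs.map fun r => (r + e) ^ N).sum < (R - e) ^ N := by
  have h0 : ∀ᶠ e in nhds (0 : ℝ), e < m := continuousAt_id.eventually_lt_const hm
  have h1 : ∀ᶠ e in nhds (0 : ℝ), r0 + e < R - e := by
    have hc1 : Continuous fun e : ℝ => r0 + e := by fun_prop
    have hc2 : Continuous fun e : ℝ => R - e := by fun_prop
    refine hc1.continuousAt.eventually_lt hc2.continuousAt ?_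
    simpa using hr0R
  have h2 : ∀ᶠ e in nhds (0 : ℝ), ∀ r ∈ {r | r ∈ rs}, ∀ a, c a * (r + e) < R - e := by
    rw [Filter.eventually_all_finite rs.finite_toSet]
    intro r hr
    rw [Filter.eventually_all]
    intro a
    have hc1 : Continuous fun e : ℝ => c a * (r + e) := by fun_prop
    have hc2 : Continuous fun e : ℝ => R - e := by fun_prop
    refine hc1.continuousAt.eventually_lt hc2.continuousAt ?_
    simpa using (hrs r hr).2.2 a
  have h2' : ∀ᶠ e in nhds (0 : ℝ), ∀ r ∈ {r | r ∈ rs}, (r + e) + (r0 + e) < R - e := by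
    rw [Filter.eventually_all_finite rs.finite_toSet]
    intro r hr
    have hc1 : Continuous fun e : ℝ => (r + e) + (r0 + e) := by fun_prop
    have hc2 : Continuous fun e : ℝ => R - e := by fun_prop
    refine hc1.continuousAt.eventually_lt hc2.continuousAt ?_
    simpa using (hrs r hr).2.1
  have hcs : ∀ l : List ℝ, Continuous fun e : ℝ => (l.map fun r => (r + e) ^ N).sum := by
    intro l
    induction l with
    | nil => simpa using continuous_const
    | cons r l ih =>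
      simp only [List.map_cons, List.sum_cons]
      exact ((continuous_const.add continuous_id).pow N).add ih
  have h3 : ∀ᶠ e in nhds (0 : ℝ),
      (r0 + e) ^ N + (rs.map fun r => (r + e) ^ N).sum < (R - e) ^ N := by
    have hc1 : Continuous fun e : ℝ => (r0 + e) ^ N := by fun_prop
    have hc2 : Continuous fun e : ℝ => (R - e) ^ N := by fun_prop
    refine (hc1.add (hcs rs)).continuousAt.eventually_lt hc2.continuousAt ?_
    simpa using hvol
  have h4 := (h0.and (h1.and (h2.and (h2'.and h3)))).filter_mono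
    (nhdsWithin_le_nhds (s := Ioi (0 : ℝ)))
  obtain ⟨e, he, he0⟩ := (h4.and self_mem_nhdsWithin).exists
  exact ⟨e, he0, he.1, he.2.1, he.2.2.2.1, he.2.2.1, he.2.2.2.2⟩

theorem State.mono_le {Ω : Set (Fin d → ℝ)} {B κ Λ M : ℝ} {g : (Fin d → ℝ) → ℝ}
    (hΩ : DomOK Ω B κ) (hg : State Ω Λ M g) :
    ∀ u ∈ Ω, ∀ v ∈ Ω, u ≤ v → g v ≤ g u := fun u hu v hv huv =>
  hg.antitone hΩ hv (hΩ.nonneg u hu) huv

/-- Room for all balls of a list. -/
theorem roomL {c : Fin d → ℝ} (hc : ∀ a, 0 < c a) {R : ℝ} (hR : 0 < R) (l : List ℝ)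
    (hl : ∀ r ∈ l, ∀ a, c a * r < R) : ∃ δ : ℝ, 0 < δ ∧ ∀ r ∈ l,
      ∀ v : Fin d → ℝ, (∀ a, 0 ≤ v a) → ∑ a, v a ≤ r → ∀ δ' ≤ δ,
        ∑ a, c a * (v a + δ') < R := by
  induction l with
  | nil => exact ⟨1, one_pos, by simp⟩
  | cons r l ih =>
    obtain ⟨δ1, h1, h1'⟩ := ih fun r hr => hl r (by simp [hr])
    obtain ⟨δ2, h2, h2'⟩ := room hc (hl r (by simp)) hR
    refine ⟨min δ1 δ2, lt_min h1 h2, fun s hs v hv hvs δ' hδ' => ?_⟩
    rcases List.mem_cons.1 hs with rfl | hs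
    · refine (Finset.sum_le_sum fun a _ => ?_).trans_lt (h2' v hv hvs)
      exact mul_le_mul_of_nonneg_left (by linarith [min_le_right δ1 δ2]) (hc a).le
    · exact h1' s hs v hv hvs δ' (hδ'.trans (min_le_left _ _))

/-- The common part of the two cases. -/
theorem exists_state_of {Ω : Set (Fin d → ℝ)} {B κ : ℝ} (hΩ : DomOK Ω B κ) {c : Fin d → ℝ}
    (hc : ∀ a, 0 < c a) {R e : ℝ} (he : 0 < e)
    (hsub : ∀ u ∈ Ω, (∀ a, 0 ≤ u a) ∧ ∑ a, c a * u a < R - e) (rs : List ℝ)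
    (hpos : ∀ r ∈ rs, 0 ≤ r) {δ : ℝ} (hδ : 0 < δ)
    (hroom : ∀ r ∈ rs, ∀ v : Fin d → ℝ, (∀ a, 0 ≤ v a) → ∑ a, v a ≤ r →
      (fun a => v a + δ) ∈ Ω) {k : ℝ} (hk0 : 0 ≤ k) (hkP : k ≤ ∏ a, c a)
    (hD : ∀ (Λ M : ℝ) (g : (Fin d → ℝ) → ℝ), State Ω Λ M g →
      (∫ u in Ω, g u * (k * (R - e - ∑ a, c a * u a) - tents rs u)) ≤ 0) :
    ∃ (Λ M : ℝ) (g : (Fin d → ℝ) → ℝ), 0 ≤ Λ ∧ State Ω Λ M g ∧
      ∀ u ∈ Ω, g u + (∏ a, c a) * e / 2 ≤ psiL Ω rs g u +
        (∏ a, c a) * (R - ∑ a, c a * u a) := by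
  have hP : 0 < ∏ a, c a := Finset.prod_pos fun a _ => hc a
  have hC := state_affine (Ω := Ω) hΩ.conv hc hsub hk0
  have hC0 : ∀ u ∈ Ω, 0 ≤ k * (R - e - ∑ a, c a * u a) := fun u hu =>
    mul_nonneg hk0 (by linarith [(hsub u hu).2])
  have hcs0 : 0 ≤ ∑ a, c a := Finset.sum_nonneg fun a _ => (hc a).le
  obtain ⟨Λ, M, g, hΛ, hg, hfin⟩ := exists_state hΩ rs hpos hδ hroom hC
    (by positivity) hC0 hD (ε := (∏ a, c a) * e / 2) (by positivity)
  refine ⟨Λ, M, g, hΛ, hg, fun u hu => ?_⟩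
  have h1 := hfin u hu
  have h2 : k * (R - e - ∑ a, c a * u a) ≤ (∏ a, c a) * (R - e - ∑ a, c a * u a) :=
    mul_le_mul_of_nonneg_right hkP (by linarith [(hsub u hu).2])
  have h3 : (∏ a, c a) * (R - e - ∑ a, c a * u a) =
      (∏ a, c a) * (R - ∑ a, c a * u a) - (∏ a, c a) * e := by ring
  linarith

theorem sum_pow_nonneg (l : List ℝ) (N : ℕ) (h : ∀ r ∈ l, 0 < r) :
    0 ≤ (l.map fun r => r ^ N).sum := by
  refine List.sum_nonneg fun x hx => ?_
  obtain ⟨s, hs, rfl⟩ := List.mem_map.1 hx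
  exact (pow_pos (h s hs) _).le

/-- **Model state, case (A)**: balls `c a * r < R` for all `a`, of total volume less than that of
the ball `R`. -/
theorem exists_stateA {c : Fin d → ℝ} (hc : ∀ a, 0 < c a) {R : ℝ} (hR : 0 < R) (rs : List ℝ)
    (hrs : ∀ r ∈ rs, 0 < r ∧ ∀ a, c a * r < R)
    (hvol : (rs.map fun r => r ^ (d + 1)).sum < R ^ (d + 1)) :
    ∃ e m : ℝ, 0 < e ∧ 0 < m ∧ 0 < R - e ∧ (∀ r ∈ rs, ∀ a, c a * (r + e) < R - e) ∧
      ∃ (Λ M : ℝ) (g : (Fin d → ℝ) → ℝ), 0 ≤ Λ ∧ State (Omc c (R - e)) Λ M g ∧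
        ∀ u ∈ Omc c (R - e), g u + m ≤ psiL (Omc c (R - e)) (rs.map fun r => r + e) g u +
          (∏ a, c a) * (R - ∑ a, c a * u a) := by
  obtain ⟨e, he, hRe, hre, hvol'⟩ := choiceA hR (d + 1) rs hrs hvol
  have hP : 0 < ∏ a, c a := Finset.prod_pos fun a _ => hc a
  refine ⟨e, (∏ a, c a) * e / 2, he, by positivity, hRe, hre, ?_⟩
  obtain ⟨κ, hκ, hcκ⟩ := exists_kappa hc
  have hΩ := domOK_Omc hc (R - e) hκ hcκ
  set rs' := rs.map fun r => r + e with hrs'
  have hpos : ∀ r ∈ rs', 0 < r ∧ ∀ a, c a * r < R - e := by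
    intro r hr
    obtain ⟨s, hs, rfl⟩ := List.mem_map.1 hr
    exact ⟨by linarith [(hrs s hs).1], hre s hs⟩
  have hRN : 0 < (R - e) ^ (d + 1) := pow_pos hRe _
  set S := (rs'.map fun r => r ^ (d + 1)).sum with hS
  have hSS : S = (rs.map fun r => (r + e) ^ (d + 1)).sum := by
    rw [hS, hrs', List.map_map]
    rfl
  have hS0 : 0 ≤ S := sum_pow_nonneg rs' (d + 1) fun r hr => (hpos r hr).1
  set k := (∏ a, c a) * S / (R - e) ^ (d + 1) with hk
  have hk0 : 0 ≤ k := by positivity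
  have hkP : k ≤ ∏ a, c a := by
    rw [hk, div_le_iff₀ hRN]
    exact mul_le_mul_of_nonneg_left (by rw [hSS]; exact hvol'.le) hP.le
  have hkk : k * (R - e) ^ (d + 1) = (∏ a, c a) * S := by
    rw [hk]; field_simp
  obtain ⟨δ, hδ, hroom⟩ := roomL hc hRe rs' fun r hr => (hpos r hr).2
  refine exists_state_of hΩ hc he (fun u hu => hu) rs' (fun r hr => (hpos r hr).1.le) hδ
    (fun r hr v hv hvr => ⟨fun a => by have := hv a; positivity, hroom r hr v hv hvr δ le_rfl⟩)
    hk0 hkP ?_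
  intro Λ M g hg
  exact domA hc hRe rs' (fun r hr => ⟨(hpos r hr).1, fun a => ((hpos r hr).2 a).le⟩) hkk
    hg.cls.bdd ((hg.mono (le_max_left Λ 0) le_rfl).cls.continuousOn hΩ (le_max_right _ _))
    (hg.mono_le hΩ)

/-- **Model state, case (B)**: in addition a ball `r0` at the simple coordinate `i`. -/
theorem exists_stateB {m : ℕ} (i : Fin (m + 1)) {c : Fin (m + 1) → ℝ} (hc : ∀ a, 0 < c a)
    (hci : c i = 1) {R r0 : ℝ} (hr0 : 0 ≤ r0) (hr0R : r0 < R) (rs : List ℝ)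
    (hrs : ∀ r ∈ rs, 0 < r ∧ r + r0 < R ∧ ∀ a, c a * r < R)
    (hvol : r0 ^ (m + 2) + (rs.map fun r => r ^ (m + 2)).sum < R ^ (m + 2)) :
    ∃ e μ : ℝ, 0 < e ∧ 0 < μ ∧ r0 + e < R - e ∧ (∀ r ∈ rs, (r + e) + (r0 + e) < R - e) ∧
      (∀ r ∈ rs, ∀ a, c a * (r + e) < R - e) ∧
      ∃ (Λ M : ℝ) (g : (Fin (m + 1) → ℝ) → ℝ), 0 ≤ Λ ∧
        State (Omi i c (R - e) (R - e - (r0 + e))) Λ M g ∧
        ∀ u ∈ Omi i c (R - e) (R - e - (r0 + e)), g u + μ ≤
          psiL (Omi i c (R - e) (R - e - (r0 + e))) (rs.map fun r => r + e) g u +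
          (∏ a, c a) * (R - ∑ a, c a * u a) := by
  obtain ⟨e, he, _, hr0e, hre0, hre, hvol'⟩ := choiceB hr0R (m + 2) rs hrs hvol 1 one_pos
  have hP : 0 < ∏ a, c a := Finset.prod_pos fun a _ => hc a
  refine ⟨e, (∏ a, c a) * e / 2, he, by positivity, hr0e, hre0, hre, ?_⟩
  have hRe : 0 < R - e := by linarith
  obtain ⟨κ, hκ, hcκ⟩ := exists_kappa hc
  set ρ := R - e - (r0 + e) with hρ
  have hΩ := domOK_Omi i hc (R - e) ρ hκ hcκ
  set rs' := rs.map fun r => r + e with hrs'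
  have hpos : ∀ r ∈ rs', 0 < r ∧ r < ρ ∧ ∀ a, c a * r < R - e := by
    intro r hr
    obtain ⟨s, hs, rfl⟩ := List.mem_map.1 hr
    exact ⟨by linarith [(hrs s hs).1], by linarith [hre0 s hs], hre s hs⟩
  have hRN : 0 < (R - e) ^ (m + 2) - (r0 + e) ^ (m + 2) := by
    have := pow_lt_pow_left₀ hr0e (by linarith) (show m + 2 ≠ 0 by omega)
    linarith
  set S := (rs'.map fun r => r ^ (m + 2)).sum with hS
  have hSS : S = (rs.map fun r => (r + e) ^ (m + 2)).sum := by
    rw [hS, hrs', List.map_map]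
    rfl
  have hS0 : 0 ≤ S := sum_pow_nonneg rs' (m + 2) fun r hr => (hpos r hr).1
  set k := (∏ a, c a) * S / ((R - e) ^ (m + 2) - (r0 + e) ^ (m + 2)) with hk
  have hk0 : 0 ≤ k := by positivity
  have hkP : k ≤ ∏ a, c a := by
    rw [hk, div_le_iff₀ hRN]
    exact mul_le_mul_of_nonneg_left (by rw [hSS]; linarith) hP.le
  have hkk : k * ((R - e) ^ (m + 2) - (r0 + e) ^ (m + 2)) = (∏ a, c a) * S := by
    rw [hk]; field_simp
  obtain ⟨δ, hδ, hroom⟩ := roomL hc hRe rs' fun r hr => (hpos r hr).2.2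
  -- room for the coordinate `i`
  obtain ⟨δ', hδ', hroom'⟩ : ∃ δ' : ℝ, 0 < δ' ∧ ∀ r ∈ rs', r + δ' < ρ := by
    have h1 : ∀ l : List ℝ, (∀ r ∈ l, r < ρ) → ∃ δ' : ℝ, 0 < δ' ∧ ∀ r ∈ l, r + δ' < ρ := by
      intro l
      induction l with
      | nil => exact fun _ => ⟨1, one_pos, by simp⟩
      | cons r l ih =>
        intro hl
        obtain ⟨δ1, h1, h1'⟩ := ih fun r hr => hl r (by simp [hr])
        have h2 := hl r (by simp)
        refine ⟨min δ1 ((ρ - r) / 2), lt_min h1 (by linarith), fun s hs => ?_⟩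
        rcases List.mem_cons.1 hs with rfl | hs
        · have := min_le_right δ1 ((ρ - s) / 2)
          linarith
        · have := h1' s hs
          have := min_le_left δ1 ((ρ - r) / 2)
          linarith
    exact h1 rs' fun r hr => (hpos r hr).2.1
  have hδδ : 0 < min δ δ' := lt_min hδ hδ'
  refine exists_state_of hΩ hc he (fun u hu => ⟨hu.1, hu.2.1⟩) rs'
    (fun r hr => (hpos r hr).1.le) hδδ (fun r hr v hv hvr => ⟨fun a => ?_, ?_, ?_⟩)
    hk0 hkP ?_
  · have := hv a; positivity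
  · exact hroom r hr v hv hvr _ (min_le_left _ _)
  · have h1 : v i ≤ ∑ a, v a := Finset.single_le_sum (fun b _ => hv b) (Finset.mem_univ i)
    have h2 := hroom' r hr
    have h3 := min_le_right δ δ'
    show v i + min δ δ' < ρ
    linarith
  · intro Λ M g hg
    refine domB i hc hci (r0 := r0 + e) (by linarith) hr0e rs'
      (fun r hr => ⟨(hpos r hr).1, ?_, fun a => ((hpos r hr).2.2 a).le⟩) hkk
      hg.cls.bdd ((hg.mono (le_max_left Λ 0) le_rfl).cls.continuousOn hΩ (le_max_right _ _))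
      (hg.mono_le hΩ)
    exact (hpos r hr).2.1.le

/-! ### Bridges to the geometric interface -/

theorem dom_Omc {c : Fin d → ℝ} (hc : ∀ a, 0 < c a) (R : ℝ) : H578.Dom (Omc c R) := by
  obtain ⟨κ, hκ, hcκ⟩ := exists_kappa hc
  have h := domOK_Omc hc R hκ hcκ
  refine ⟨h.nonneg, ⟨{u | ∑ a, c a * u a < R}, ?_, ?_⟩, h.conv, h.down, ⟨_, h.bdd⟩⟩
  · exact isOpen_lt (by fun_prop) continuous_const
  · ext u
    simp only [Omc, mem_ofPred_eq, mem_inter_iff]
    tauto

theorem dom_Omi (i : Fin d) {c : Fin d → ℝ} (hc : ∀ a, 0 < c a) (R ρ : ℝ) :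
    H578.Dom (Omi i c R ρ) := by
  obtain ⟨κ, hκ, hcκ⟩ := exists_kappa hc
  have h := domOK_Omi i hc R ρ hκ hcκ
  refine ⟨h.nonneg, ⟨{u | ∑ a, c a * u a < R} ∩ {u | u i < ρ}, ?_, ?_⟩, h.conv, h.down,
    ⟨_, h.bdd⟩⟩
  · exact (isOpen_lt (by fun_prop) continuous_const).inter
      (isOpen_lt (continuous_apply i) continuous_const)
  · ext u
    simp only [Omi, mem_ofPred_eq, mem_inter_iff]
    tauto

theorem Cls.sta {Ω : Set (Fin d → ℝ)} {B κ Λ M : ℝ} {f : (Fin d → ℝ) → ℝ}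
    (hΩ : DomOK Ω B κ) (hf : Cls Ω Λ M f) : H578.Sta Ω f :=
  ⟨hf.conc, (hf.mono (le_max_left Λ 0) le_rfl).continuousOn hΩ (le_max_right _ _), hf.up⟩

theorem shkLe_shk {Ω : Set (Fin d → ℝ)} (a : Fin d) (f : (Fin d → ℝ) → ℝ) :
    H578.ShkLe Ω a f (shk Ω a f) := fun _ hu _ h => shk_le_of_forall hu h

theorem tent_eq (r : ℝ) (u : Fin d → ℝ) : H578.tent r u = tent r u := rfl

theorem antiD_iff {Ω : Set (Fin d → ℝ)} (a : Fin d) (f : (Fin d → ℝ) → ℝ) :
    H578.AntiD Ω a f ↔ AntiDir Ω a f := Iff.rfl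

end Vale.Agent.P209.H856
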