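import Mathlib

/-! # P209: Blaschke shaking of concave functions (definitions and first properties)

`Ω ⊆ {u ≥ 0}` is a convex bounded down-set of `ℝ^d`. `shk Ω a f` is the decreasing rearrangement of
`f` on the lines in direction `a`, written as a sup-min, which is the right formula for functions
with convex superlevel sets. -/

namespace Vale.Agent.P209.H856

open Function

variable {d : ℕ}

/-- The tent `(r - |u|)_+`. -/
noncomputable def tent (r : ℝ) (u : Fin d → ℝ) : ℝ := max (r - ∑ a, u a) 0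

/-- Values of `min f(x) f(x + u_a)` on the line through `u` in direction `a`. -/
def shkSet (Ω : Set (Fin d → ℝ)) (a : Fin d) (f : (Fin d → ℝ) → ℝ) (u : Fin d → ℝ) : Set ℝ :=
  {p | ∃ x : ℝ, 0 ≤ x ∧ update u a (x + u a) ∈ Ω ∧
    p = min (f (update u a x)) (f (update u a (x + u a)))}

/-- Shaking (decreasing rearrangement) in direction `a`. -/
noncomputable def shk (Ω : Set (Fin d → ℝ)) (a : Fin d) (f : (Fin d → ℝ) → ℝ)
    (u : Fin d → ℝ) : ℝ :=
  sSup (shkSet Ω a f u)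

/-- Shaking successively in the directions of a list. -/
noncomputable def shkL (Ω : Set (Fin d → ℝ)) (l : List (Fin d)) (f : (Fin d → ℝ) → ℝ) :
    (Fin d → ℝ) → ℝ :=
  l.foldl (fun g a => shk Ω a g) f

/-- One step: subtract the tent of a ball, then shake in all directions. -/
noncomputable def psi (Ω : Set (Fin d → ℝ)) (r : ℝ) (g : (Fin d → ℝ) → ℝ) : (Fin d → ℝ) → ℝ :=
  shkL Ω (List.finRange d) (fun u => g u - tent r u)

/-- All steps, the balls of the list in order. -/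
noncomputable def psiL (Ω : Set (Fin d → ℝ)) (l : List ℝ) (g : (Fin d → ℝ) → ℝ) :
    (Fin d → ℝ) → ℝ :=
  l.foldl (fun g r => psi Ω r g) g

/-- Properties of the base domain. -/
structure DomOK (Ω : Set (Fin d → ℝ)) (B κ : ℝ) : Prop where
  conv : Convex ℝ Ω
  nonneg : ∀ u ∈ Ω, ∀ a, 0 ≤ u a
  bdd : ∀ u ∈ Ω, ∀ a, u a ≤ B
  down : ∀ u ∈ Ω, ∀ v : Fin d → ℝ, (∀ a, 0 ≤ v a) → (∀ a, v a ≤ u a) → v ∈ Ω
  meas : MeasurableSet Ω
  kappa : 0 ≤ κ
  slope : ∀ u ∈ Ω, ∀ a b : Fin d, b ≠ a → ∀ h : ℝ, 0 ≤ h →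
    update (update u b (u b + h)) a 0 ∈ Ω → ∀ y : ℝ, 0 ≤ y → y ≤ u a - κ * h →
      update (update u b (u b + h)) a y ∈ Ω

/-- `f` is nonincreasing in the direction `a`. -/
def AntiDir (Ω : Set (Fin d → ℝ)) (a : Fin d) (f : (Fin d → ℝ) → ℝ) : Prop :=
  ∀ u ∈ Ω, ∀ h : ℝ, 0 ≤ h → update u a (u a + h) ∈ Ω → f (update u a (u a + h)) ≤ f u

/-- Concave, bounded by `M`, upward slopes at most `1`, downward slopes at most `Λ`. -/
structure Cls (Ω : Set (Fin d → ℝ)) (Λ M : ℝ) (f : (Fin d → ℝ) → ℝ) : Prop where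
  conc : ConcaveOn ℝ Ω f
  bdd : ∀ u ∈ Ω, |f u| ≤ M
  up : ∀ u ∈ Ω, ∀ (b : Fin d) (h : ℝ), 0 ≤ h → update u b (u b + h) ∈ Ω →
    f (update u b (u b + h)) ≤ f u + h
  lo : ∀ u ∈ Ω, ∀ (b : Fin d) (h : ℝ), 0 ≤ h → update u b (u b + h) ∈ Ω →
    f u - Λ * h ≤ f (update u b (u b + h))

/-- States: functions of the class which are nonincreasing in every coordinate. -/
structure State (Ω : Set (Fin d → ℝ)) (Λ M : ℝ) (f : (Fin d → ℝ) → ℝ) : Prop where
  cls : Cls Ω Λ M f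
  anti : ∀ a, AntiDir Ω a f

section basics

variable {Ω : Set (Fin d → ℝ)} {B κ Λ M : ℝ} {f g : (Fin d → ℝ) → ℝ} {a b : Fin d}
  {u : Fin d → ℝ}

theorem DomOK.upd_le (hΩ : DomOK Ω B κ) {x y : ℝ} (hy : update u a y ∈ Ω) (h0 : 0 ≤ x)
    (hxy : x ≤ y) : update u a x ∈ Ω := by
  refine hΩ.down _ hy _ (fun c => ?_) (fun c => ?_)
  · by_cases hc : c = a
    · subst hc; simpa using h0
    · have := hΩ.nonneg _ hy c
      simpa [update_of_ne hc] using this
  · by_cases hc : c = a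
    · subst hc; simpa using hxy
    · simp [update_of_ne hc]

theorem shkSet_nonempty (hu : u ∈ Ω) : (shkSet Ω a f u).Nonempty :=
  ⟨_, 0, le_rfl, by simpa using hu, rfl⟩

theorem shkSet_bdd (hf : ∀ u ∈ Ω, f u ≤ M) : BddAbove (shkSet Ω a f u) := by
  refine ⟨M, ?_⟩
  rintro p ⟨x, _, hx, rfl⟩
  exact (min_le_right _ _).trans (hf _ hx)

theorem le_shk (hf : ∀ u ∈ Ω, f u ≤ M) {x : ℝ} (hx : 0 ≤ x) (hxu : update u a (x + u a) ∈ Ω) :
    min (f (update u a x)) (f (update u a (x + u a))) ≤ shk Ω a f u :=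
  le_csSup (shkSet_bdd hf) ⟨x, hx, hxu, rfl⟩

theorem exists_of_lt_shk (hu : u ∈ Ω) {p : ℝ} (hp : p < shk Ω a f u) :
    ∃ x : ℝ, 0 ≤ x ∧ update u a (x + u a) ∈ Ω ∧ p < f (update u a x) ∧
      p < f (update u a (x + u a)) := by
  obtain ⟨q, ⟨x, hx, hxu, rfl⟩, hq⟩ := exists_lt_of_lt_csSup (shkSet_nonempty hu) hp
  exact ⟨x, hx, hxu, lt_of_lt_of_le hq (min_le_left _ _), lt_of_lt_of_le hq (min_le_right _ _)⟩

theorem shk_le_of_forall (hu : u ∈ Ω) {c : ℝ}
    (h : ∀ x : ℝ, 0 ≤ x → update u a (x + u a) ∈ Ω →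
      min (f (update u a x)) (f (update u a (x + u a))) ≤ c) : shk Ω a f u ≤ c := by
  refine csSup_le (shkSet_nonempty hu) ?_
  rintro p ⟨x, hx, hxu, rfl⟩
  exact h x hx hxu

theorem self_le_shk (hf : ∀ u ∈ Ω, f u ≤ M) (hu : u ∈ Ω) :
    min (f (update u a 0)) (f u) ≤ shk Ω a f u := by
  have := le_shk (a := a) (u := u) hf (x := 0) le_rfl (by simpa using hu)
  simpa using this

theorem shk_bdd (hΩ : DomOK Ω B κ) (hf : ∀ u ∈ Ω, |f u| ≤ M) (hu : u ∈ Ω) :
    |shk Ω a f u| ≤ M := by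
  have hfM : ∀ u ∈ Ω, f u ≤ M := fun u hu => (abs_le.1 (hf u hu)).2
  refine abs_le.2 ⟨?_, ?_⟩
  · refine le_trans ?_ (self_le_shk hfM hu)
    refine le_min (abs_le.1 (hf _ ?_)).1 (abs_le.1 (hf _ hu)).1
    have h1 : update u a (u a) ∈ Ω := by simpa using hu
    exact hΩ.upd_le h1 le_rfl (hΩ.nonneg u hu a)
  · exact shk_le_of_forall hu fun x _ hxu => (min_le_right _ _).trans (hfM _ hxu)

theorem shk_mono (hΩ : DomOK Ω B κ) (hg : ∀ u ∈ Ω, g u ≤ M) (hfg : ∀ u ∈ Ω, f u ≤ g u)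
    (hu : u ∈ Ω) : shk Ω a f u ≤ shk Ω a g u := by
  refine shk_le_of_forall hu fun x hx hxu => le_trans ?_ (le_shk hg hx hxu)
  exact min_le_min (hfg _ (hΩ.upd_le hxu hx (by linarith [hΩ.nonneg u hu a]))) (hfg _ hxu)

theorem shk_add_const (hf : ∀ u ∈ Ω, f u ≤ M) (hu : u ∈ Ω) (c : ℝ) :
    shk Ω a (fun v => f v + c) u = shk Ω a f u + c := by
  apply le_antisymm
  · refine shk_le_of_forall hu fun x hx hxu => ?_
    rw [min_add_add_right]
    exact add_le_add_left (le_shk hf hx hxu) c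
  · have : shk Ω a f u ≤ shk Ω a (fun v => f v + c) u - c := by
      refine shk_le_of_forall hu fun x hx hxu => ?_
      have := le_shk (f := fun v => f v + c) (M := M + c) (a := a) (u := u)
        (fun v hv => by simpa using hf v hv) hx hxu
      rw [min_add_add_right] at this
      linarith
    linarith

theorem shk_congr (hu : u ∈ Ω) (hΩ : DomOK Ω B κ) (hfg : ∀ u ∈ Ω, f u = g u) :
    shk Ω a f u = shk Ω a g u := by
  have : shkSet Ω a f u = shkSet Ω a g u := by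
    ext p
    constructor
    · rintro ⟨x, hx, hxu, rfl⟩
      exact ⟨x, hx, hxu, by
        rw [hfg _ hxu, hfg _ (hΩ.upd_le hxu hx (by linarith [hΩ.nonneg u hu a]))]⟩
    · rintro ⟨x, hx, hxu, rfl⟩
      exact ⟨x, hx, hxu, by
        rw [hfg _ hxu, hfg _ (hΩ.upd_le hxu hx (by linarith [hΩ.nonneg u hu a]))]⟩
  rw [shk, shk, this]

/-- A function nonincreasing in direction `a` is not changed. -/
theorem shk_of_anti (hΩ : DomOK Ω B κ) (hf : ∀ u ∈ Ω, f u ≤ M) (ha : AntiDir Ω a f)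
    (hu : u ∈ Ω) : shk Ω a f u = f u := by
  have hmem : ∀ y : ℝ, update u a y ∈ Ω → ∀ z : ℝ, 0 ≤ z → z ≤ y →
      f (update u a y) ≤ f (update u a z) := by
    intro y hy z hz hzy
    have h1 := ha (update u a z) (hΩ.upd_le hy hz hzy) (y - z) (by linarith) (by
      simpa using hy)
    simpa using h1
  apply le_antisymm
  · refine shk_le_of_forall hu fun x hx hxu => (min_le_right _ _).trans ?_
    have := hmem _ hxu (u a) (hΩ.nonneg u hu a) (by linarith)
    simpa using this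
  · refine le_trans ?_ (self_le_shk (a := a) hf hu)
    refine le_min ?_ le_rfl
    have := hmem (u a) (by simpa using hu) 0 le_rfl (hΩ.nonneg u hu a)
    simpa using this

end basics

end Vale.Agent.P209.H856
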