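import Vale.Agent.P209.H856.Shake

/-! # P209: the class of states is preserved by shaking -/

namespace Vale.Agent.P209.H856

open Function

variable {d : ℕ} {Ω : Set (Fin d → ℝ)} {B κ Λ M : ℝ} {f g : (Fin d → ℝ) → ℝ} {a b : Fin d}
  {u v : Fin d → ℝ}

theorem update_combo (u : Fin d → ℝ) (a : Fin d) (s t x z : ℝ) (hst : s + t = 1) :
    update u a (s * x + t * z) = s • update u a x + t • update u a z := by
  funext c
  by_cases hc : c = a
  · subst hc; simp
  · simp only [update_of_ne hc, Pi.add_apply, Pi.smul_apply, smul_eq_mul]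
    rw [← add_mul, hst, one_mul]

theorem update_combo2 (u v : Fin d → ℝ) (a : Fin d) (s t x z : ℝ) :
    update (s • u + t • v) a (s * x + t * z) = s • update u a x + t • update v a z := by
  funext c
  by_cases hc : c = a
  · subst hc; simp
  · simp [update_of_ne hc]

/-- Concave functions on lines: the value in between is at least the minimum of the ends. -/
theorem quasi_line (hf : ConcaveOn ℝ Ω f) {x y z : ℝ} (hx : update u a x ∈ Ω)
    (hz : update u a z ∈ Ω) (hxy : x ≤ y) (hyz : y ≤ z) :
    min (f (update u a x)) (f (update u a z)) ≤ f (update u a y) := by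
  rcases eq_or_lt_of_le (hxy.trans hyz) with h | h
  · have : y = x := le_antisymm (by linarith) hxy
    subst this
    exact min_le_left _ _
  · have hpos : 0 < z - x := by linarith
    set t := (y - x) / (z - x) with ht
    have ht0 : 0 ≤ t := div_nonneg (by linarith) hpos.le
    have ht1 : t ≤ 1 := (div_le_one hpos).2 (by linarith)
    have hy : y = (1 - t) * x + t * z := by
      have : t * (z - x) = y - x := div_mul_cancel₀ _ hpos.ne'
      linarith
    have key := hf.2 hx hz (by linarith : (0 : ℝ) ≤ 1 - t) ht0 (by ring)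
    rw [← update_combo u a (1 - t) t x z (by ring), ← hy] at key
    refine le_trans ?_ key
    simp only [smul_eq_mul]
    have h1 := min_le_left (f (update u a x)) (f (update u a z))
    have h2 := min_le_right (f (update u a x)) (f (update u a z))
    nlinarith

theorem Cls.le (hf : Cls Ω Λ M f) : ∀ u ∈ Ω, f u ≤ M := fun u hu => (abs_le.1 (hf.bdd u hu)).2

theorem shk_antiDir_self (hΩ : DomOK Ω B κ) (hf : ConcaveOn ℝ Ω f) (hM : ∀ u ∈ Ω, f u ≤ M) :
    AntiDir Ω a (shk Ω a f) := by
  intro u hu h hh hv
  refine shk_le_of_forall hv fun x hx hxv => ?_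
  simp only [update_idem, update_self] at hxv ⊢
  have hua := hΩ.nonneg u hu a
  have hxu : update u a (x + u a) ∈ Ω := hΩ.upd_le hxv (by linarith) (by linarith)
  refine le_trans (le_min (min_le_left _ _) ?_) (le_shk hM hx hxu)
  exact quasi_line hf (hΩ.upd_le hxv hx (by linarith)) hxv (by linarith) (by linarith)

theorem update_swap (u : Fin d → ℝ) (hab : b ≠ a) (x y : ℝ) :
    update (update u b x) a y = update (update u a y) b x := (update_comm hab x y u)

theorem shk_antiDir (hΩ : DomOK Ω B κ) (hM : ∀ u ∈ Ω, f u ≤ M) (hab : b ≠ a)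
    (hf : AntiDir Ω b f) : AntiDir Ω b (shk Ω a f) := by
  intro u hu h hh hv
  refine shk_le_of_forall hv fun x hx hxv => ?_
  have hva : update u b (u b + h) a = u a := update_of_ne (Ne.symm hab) _ _
  rw [hva] at hxv ⊢
  have hua := hΩ.nonneg u hu a
  have hub := hΩ.nonneg u hu b
  have key : ∀ y : ℝ, 0 ≤ y → y ≤ x + u a →
      update u a y ∈ Ω ∧ f (update (update u b (u b + h)) a y) ≤ f (update u a y) := by
    intro y hy hyx
    have h1 : update (update u b (u b + h)) a y ∈ Ω := hΩ.upd_le hxv hy hyx
    rw [update_swap u hab] at h1 ⊢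
    have hb : update u a y b = u b := update_of_ne hab _ _
    have h2 : update u a y ∈ Ω := by
      have := hΩ.upd_le h1 (x := u b) hub (by linarith)
      rwa [← hb, update_eq_self] at this
    refine ⟨h2, ?_⟩
    have := hf _ h2 h hh (by rwa [hb])
    rwa [hb] at this
  obtain ⟨_, h1⟩ := key x hx (by linarith)
  obtain ⟨h2', h2⟩ := key (x + u a) (by linarith) le_rfl
  exact (min_le_min h1 h2).trans (le_shk hM hx h2')

theorem shk_up (hΩ : DomOK Ω B κ) (hf : Cls Ω Λ M f) (hu : u ∈ Ω) {h : ℝ} (hh : 0 ≤ h)
    (hv : update u b (u b + h) ∈ Ω) :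
    shk Ω a f (update u b (u b + h)) ≤ shk Ω a f u + h := by
  by_cases hab : b = a
  · subst hab
    have := shk_antiDir_self (a := b) hΩ hf.conc hf.le u hu h hh hv
    linarith
  refine shk_le_of_forall hv fun x hx hxv => ?_
  have hva : update u b (u b + h) a = u a := update_of_ne (Ne.symm hab) _ _
  rw [hva] at hxv ⊢
  have hua := hΩ.nonneg u hu a
  have hub := hΩ.nonneg u hu b
  have key : ∀ y : ℝ, 0 ≤ y → y ≤ x + u a →
      update u a y ∈ Ω ∧ f (update (update u b (u b + h)) a y) ≤ f (update u a y) + h := by
    intro y hy hyx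
    have h1 : update (update u b (u b + h)) a y ∈ Ω := hΩ.upd_le hxv hy hyx
    rw [update_swap u hab] at h1 ⊢
    have hb : update u a y b = u b := update_of_ne hab _ _
    have h2 : update u a y ∈ Ω := by
      have := hΩ.upd_le h1 (x := u b) hub (by linarith)
      rwa [← hb, update_eq_self] at this
    refine ⟨h2, ?_⟩
    have := hf.up _ h2 b h hh (by rwa [hb])
    rwa [hb] at this
  obtain ⟨_, h1⟩ := key x hx (by linarith)
  obtain ⟨h2', h2⟩ := key (x + u a) (by linarith) le_rfl
  refine (min_le_min h1 h2).trans ?_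
  rw [min_add_add_right]
  have := le_shk hf.le hx h2'
  linarith

theorem shk_lo (hΩ : DomOK Ω B κ) (hf : Cls Ω Λ M f) (hΛ : 0 ≤ Λ) (hu : u ∈ Ω) {h : ℝ}
    (hh : 0 ≤ h) (hv : update u b (u b + h) ∈ Ω) :
    shk Ω a f u - (Λ + (1 + κ)) * h ≤ shk Ω a f (update u b (u b + h)) := by
  have hκ := hΩ.kappa
  have hua := hΩ.nonneg u hu a
  rw [sub_le_iff_le_add]
  refine shk_le_of_forall hu fun x hx hxu => ?_
  rw [← sub_le_iff_le_add]
  by_cases hab : b = a
  · subst hab
    by_cases hxh : h ≤ x
    · have h1 : update (update u b (u b + h)) b ((x - h) + update u b (u b + h) b) ∈ Ω := by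
        simp only [update_idem, update_self]
        rw [show x - h + (u b + h) = x + u b by ring]
        exact hxu
      refine le_trans ?_ (le_shk hf.le (by linarith) h1)
      simp only [update_idem, update_self]
      have e : x - h + (u b + h) = x + u b := by ring
      rw [e]
      have h2 : update u b (x - h) ∈ Ω := hΩ.upd_le hxu (by linarith) (by linarith)
      have h3 := hf.up _ h2 b h hh (by
        simp only [update_idem, update_self]
        exact hΩ.upd_le hxu (by linarith) (by linarith))
      simp only [update_idem, update_self, sub_add_cancel] at h3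
      refine le_min ?_ ?_
      · have := min_le_left (f (update u b x)) (f (update u b (x + u b)))
        nlinarith [mul_nonneg hΛ hh, mul_nonneg hκ hh]
      · have := min_le_right (f (update u b x)) (f (update u b (x + u b)))
        nlinarith [mul_nonneg hΛ hh, mul_nonneg hκ hh]
    · replace hxh := not_le.1 hxh
      have h1 : update (update u b (u b + h)) b (0 + update u b (u b + h) b) ∈ Ω := by
        simpa only [update_idem, update_self, zero_add] using hv
      refine le_trans ?_ (le_shk hf.le le_rfl h1)
      simp only [update_idem, update_self, zero_add]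
      have h2 : update u b 0 ∈ Ω := hΩ.upd_le hxu le_rfl (by linarith)
      have h3 := hf.up _ h2 b x hx (by
        simp only [update_idem, update_self, zero_add]
        exact hΩ.upd_le hxu (by linarith) (by linarith))
      simp only [update_idem, update_self, zero_add] at h3
      have h4 := hf.lo _ hxu b (h - x) (by linarith) (by
        simp only [update_idem, update_self]
        rw [show x + u b + (h - x) = u b + h by ring]
        exact hv)
      simp only [update_idem, update_self] at h4
      have e : x + u b + (h - x) = u b + h := by ring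
      rw [e] at h4
      refine le_min ?_ ?_
      · have := min_le_left (f (update u b x)) (f (update u b (x + u b)))
        nlinarith [mul_nonneg hΛ hh, mul_nonneg hκ hh]
      · have := min_le_right (f (update u b x)) (f (update u b (x + u b)))
        nlinarith [mul_nonneg hΛ hh, mul_nonneg hκ hh, mul_nonneg hΛ hx]
  · have hub := hΩ.nonneg u hu b
    have hva : update u b (u b + h) a = u a := update_of_ne (Ne.symm hab) _ _
    set y := max (x - κ * h) 0 with hy
    have hy0 : 0 ≤ y := le_max_right _ _
    have hκh := mul_nonneg hκ hh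
    have hyx : y ≤ x := max_le (by linarith) hx
    have hxy : x - y ≤ κ * h := by
      have := le_max_left (x - κ * h) 0
      linarith
    have hmem : update (update u b (u b + h)) a (y + u a) ∈ Ω := by
      rcases le_total (x - κ * h) 0 with hc | hc
      · have : y = 0 := max_eq_right hc
        rw [this, zero_add, ← hva, update_eq_self]
        exact hv
      · have hye : y = x - κ * h := max_eq_left hc
        have h0 : update (update (update u a (x + u a)) b ((update u a (x + u a)) b + h)) a 0 ∈ Ω := by
          have e1 : (update u a (x + u a)) b = u b := update_of_ne hab _ _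
          rw [e1, update_swap _ hab, update_idem, ← update_swap _ hab]
          exact hΩ.upd_le (x := 0) (y := u a) (by rw [← hva, update_eq_self]; exact hv) le_rfl hua
        have h5 := hΩ.slope _ hxu a b hab h hh h0 (y + u a) (by linarith) (by
          simp only [update_self]
          linarith)
        have e1 : (update u a (x + u a)) b = u b := update_of_ne hab _ _
        rw [e1, update_swap _ hab, update_idem, ← update_swap _ hab] at h5
        exact h5
    have h1 : update (update u b (u b + h)) a (y + update u b (u b + h) a) ∈ Ω := by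
      rw [hva]; exact hmem
    refine le_trans ?_ (le_shk hf.le hy0 h1)
    rw [hva]
    have key : ∀ z : ℝ, 0 ≤ z → z ≤ y + u a → update u a (z + (x - y)) ∈ Ω →
        f (update u a (z + (x - y))) - (Λ + (1 + κ)) * h ≤
          f (update (update u b (u b + h)) a z) := by
      intro z hz hzy hzm
      have m1 : update (update u b (u b + h)) a z ∈ Ω := hΩ.upd_le hmem hz hzy
      have m2 : update u a z ∈ Ω := hΩ.upd_le hzm hz (by linarith)
      rw [update_swap u hab] at m1 ⊢
      have hb : update u a z b = u b := update_of_ne hab _ _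
      have l1 := hf.lo _ m2 b h hh (by rwa [hb])
      rw [hb] at l1
      have l2 := hf.up _ m2 a (x - y) (by linarith) (by
        simpa only [update_idem, update_self] using hzm)
      simp only [update_idem, update_self] at l2
      nlinarith [mul_nonneg hΛ hh]
    refine le_min ?_ ?_
    · have k := key y hy0 (by linarith) (by
        have : y + (x - y) = x := by ring
        rw [this]
        exact hΩ.upd_le hxu hx (by linarith))
      have e : y + (x - y) = x := by ring
      rw [e] at k
      have := min_le_left (f (update u a x)) (f (update u a (x + u a)))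
      linarith
    · have e : y + u a + (x - y) = x + u a := by ring
      have k := key (y + u a) (by linarith) le_rfl (by rw [e]; exact hxu)
      rw [e] at k
      have := min_le_right (f (update u a x)) (f (update u a (x + u a)))
      linarith

theorem shk_concave (hΩ : DomOK Ω B κ) (hf : ConcaveOn ℝ Ω f) (hM : ∀ u ∈ Ω, f u ≤ M) :
    ConcaveOn ℝ Ω (shk Ω a f) := by
  refine ⟨hΩ.conv, ?_⟩
  intro u hu v hv s t hs ht hst
  simp only [smul_eq_mul]
  by_contra hcon
  replace hcon := not_le.1 hcon
  set W := shk Ω a f (s • u + t • v) with hW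
  set δ := s * shk Ω a f u + t * shk Ω a f v - W with hδ
  have hδ0 : 0 < δ := by linarith
  obtain ⟨x, hx, hxu, h1, h2⟩ := exists_of_lt_shk (a := a) (f := f) hu
    (p := shk Ω a f u - δ / 2) (by linarith)
  obtain ⟨y, hy, hyv, h3, h4⟩ := exists_of_lt_shk (a := a) (f := f) hv
    (p := shk Ω a f v - δ / 2) (by linarith)
  have hx' : update u a x ∈ Ω := hΩ.upd_le hxu hx (by linarith [hΩ.nonneg u hu a])
  have hy' : update v a y ∈ Ω := hΩ.upd_le hyv hy (by linarith [hΩ.nonneg v hv a])
  have e1 : update (s • u + t • v) a (s * x + t * y + (s • u + t • v) a)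
      = s • update u a (x + u a) + t • update v a (y + v a) := by
    rw [← update_combo2]
    congr 1
    simp only [Pi.add_apply, Pi.smul_apply, smul_eq_mul]
    ring
  have hm : update (s • u + t • v) a (s * x + t * y + (s • u + t • v) a) ∈ Ω := by
    rw [e1]
    exact hΩ.conv hxu hyv hs ht hst
  have k := le_shk (a := a) hM (x := s * x + t * y) (by positivity) hm
  rw [e1, update_combo2] at k
  have c1 := hf.2 hx' hy' hs ht hst
  have c2 := hf.2 hxu hyv hs ht hst
  simp only [smul_eq_mul] at c1 c2
  have hmin : s * (shk Ω a f u - δ / 2) + t * (shk Ω a f v - δ / 2) ≤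
      min (f (s • update u a x + t • update v a y))
        (f (s • update u a (x + u a) + t • update v a (y + v a))) := by
    refine le_min (le_trans ?_ c1) (le_trans ?_ c2)
    · exact add_le_add (mul_le_mul_of_nonneg_left h1.le hs) (mul_le_mul_of_nonneg_left h3.le ht)
    · exact add_le_add (mul_le_mul_of_nonneg_left h2.le hs) (mul_le_mul_of_nonneg_left h4.le ht)
  have k2 := hmin.trans k
  have : s * (shk Ω a f u - δ / 2) + t * (shk Ω a f v - δ / 2)
      = s * shk Ω a f u + t * shk Ω a f v - (s + t) * (δ / 2) := by ring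
  rw [this, hst] at k2
  rw [← hW] at k2
  linarith

theorem Cls.shk (hΩ : DomOK Ω B κ) (hf : Cls Ω Λ M f) (hΛ : 0 ≤ Λ) (a : Fin d) :
    Cls Ω (Λ + (1 + κ)) M (shk Ω a f) where
  conc := shk_concave hΩ hf.conc hf.le
  bdd := fun _ hu => shk_bdd hΩ hf.bdd hu
  up := fun _ hu _ _ hh hv => shk_up hΩ hf hu hh hv
  lo := fun _ hu _ _ hh hv => shk_lo hΩ hf hΛ hu hh hv

theorem Cls.mono (hf : Cls Ω Λ M f) {Λ' M' : ℝ} (h1 : Λ ≤ Λ') (h2 : M ≤ M') : Cls Ω Λ' M' f where
  conc := hf.conc
  bdd := fun u hu => (hf.bdd u hu).trans h2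
  up := hf.up
  lo := fun u hu b h hh hv => by
    have := hf.lo u hu b h hh hv
    nlinarith

theorem State.mono (hf : State Ω Λ M f) {Λ' M' : ℝ} (h1 : Λ ≤ Λ') (h2 : M ≤ M') :
    State Ω Λ' M' f := ⟨hf.cls.mono h1 h2, hf.anti⟩

theorem shkL_cons (l : List (Fin d)) (a : Fin d) (f : (Fin d → ℝ) → ℝ) :
    shkL Ω (a :: l) f = shkL Ω l (shk Ω a f) := rfl

theorem Cls.shkL (hΩ : DomOK Ω B κ) (l : List (Fin d)) : ∀ {Λ : ℝ} {f : (Fin d → ℝ) → ℝ},
    Cls Ω Λ M f → 0 ≤ Λ → Cls Ω (Λ + l.length * (1 + κ)) M (shkL Ω l f) := by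
  induction l with
  | nil => intro Λ f hf _; simpa [H856.shkL] using hf
  | cons a l ih =>
    intro Λ f hf hΛ
    rw [shkL_cons]
    have h := ih (hf.shk hΩ hΛ a) (by linarith [hΩ.kappa])
    refine h.mono (le_of_eq ?_) le_rfl
    push_cast [List.length_cons]
    ring

theorem antiDir_shkL (hΩ : DomOK Ω B κ) (l : List (Fin d)) : ∀ {Λ : ℝ} {f : (Fin d → ℝ) → ℝ},
    Cls Ω Λ M f → 0 ≤ Λ → ∀ b : Fin d, (b ∈ l ∨ AntiDir Ω b f) → AntiDir Ω b (shkL Ω l f) := by
  induction l with
  | nil => intro Λ f _ _ b hb; simpa [H856.shkL] using hb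
  | cons a l ih =>
    intro Λ f hf hΛ b hb
    rw [shkL_cons]
    refine ih (hf.shk hΩ hΛ a) (by linarith [hΩ.kappa]) b ?_
    by_cases hba : b = a
    · subst hba
      exact Or.inr (shk_antiDir_self hΩ hf.conc hf.le)
    · rcases hb with hb | hb
      · rcases List.mem_cons.1 hb with hb | hb
        · exact absurd hb hba
        · exact Or.inl hb
      · exact Or.inr (shk_antiDir hΩ hf.le hba hb)

theorem tent_nonneg (r : ℝ) (u : Fin d → ℝ) : 0 ≤ tent r u := le_max_right _ _

theorem tent_le {r : ℝ} (hr : 0 ≤ r) (hu : ∀ a, 0 ≤ u a) : tent r u ≤ r := by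
  refine max_le ?_ hr
  have : 0 ≤ ∑ a, u a := Finset.sum_nonneg fun a _ => hu a
  linarith

theorem sum_update (u : Fin d → ℝ) (b : Fin d) (h : ℝ) :
    ∑ a, update u b (u b + h) a = ∑ a, u a + h := by
  rw [Finset.sum_update_of_mem (Finset.mem_univ b), ← Finset.add_sum_erase _ u (Finset.mem_univ b),
    Finset.sdiff_singleton_eq_erase]
  ring

theorem tent_update_le (r : ℝ) (u : Fin d → ℝ) (b : Fin d) {h : ℝ} (hh : 0 ≤ h) :
    tent r (update u b (u b + h)) ≤ tent r u := by
  unfold tent
  rw [sum_update]
  exact max_le_max (by linarith) le_rfl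

theorem tent_le_update (r : ℝ) (u : Fin d → ℝ) (b : Fin d) {h : ℝ} (hh : 0 ≤ h) :
    tent r u ≤ tent r (update u b (u b + h)) + h := by
  unfold tent
  rw [sum_update]
  refine max_le ?_ ?_
  · have := le_max_left (r - (∑ a, u a + h)) 0
    linarith
  · have := le_max_right (r - (∑ a, u a + h)) 0
    linarith

theorem tent_convex (r : ℝ) (hΩ : Convex ℝ Ω) : ConvexOn ℝ Ω (tent (d := d) r) := by
  refine ⟨hΩ, ?_⟩
  intro u _ v _ s t hs ht hst
  simp only [tent, Pi.add_apply, Pi.smul_apply, smul_eq_mul]
  have e : r - ∑ a, (s * u a + t * v a) = s * (r - ∑ a, u a) + t * (r - ∑ a, v a) := by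
    rw [Finset.sum_add_distrib, ← Finset.mul_sum, ← Finset.mul_sum]
    have : r = s * r + t * r := by rw [← add_mul, hst, one_mul]
    linarith
  rw [e]
  refine max_le ?_ (by positivity)
  exact add_le_add (mul_le_mul_of_nonneg_left (le_max_left _ _) hs)
    (mul_le_mul_of_nonneg_left (le_max_left _ _) ht)

/-- Placing a ball below a state. -/
theorem State.sub_tent (hΩ : DomOK Ω B κ) (hg : State Ω Λ M g) {r : ℝ} (hr : 0 ≤ r) :
    Cls Ω Λ (M + r) (fun u => g u - tent r u) where
  conc := hg.cls.conc.sub (tent_convex r hΩ.conv)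
  bdd := fun u hu => by
    have h1 := abs_le.1 (hg.cls.bdd u hu)
    have h2 := tent_nonneg r u
    have h3 := tent_le (u := u) hr (hΩ.nonneg u hu)
    exact abs_le.2 ⟨by linarith, by linarith⟩
  up := fun u hu b h hh hv => by
    have h1 := hg.anti b u hu h hh hv
    have h2 := tent_le_update r u b hh
    linarith
  lo := fun u hu b h hh hv => by
    have h1 := hg.cls.lo u hu b h hh hv
    have h2 := tent_update_le r u b hh
    linarith

theorem State.psi (hΩ : DomOK Ω B κ) (hg : State Ω Λ M g) (hΛ : 0 ≤ Λ) {r : ℝ} (hr : 0 ≤ r) :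
    State Ω (Λ + d * (1 + κ)) (M + r) (psi Ω r g) := by
  have h := hg.sub_tent hΩ hr
  refine ⟨?_, fun a => ?_⟩
  · have := h.shkL hΩ (List.finRange d) hΛ
    rw [List.length_finRange] at this
    exact this
  · exact antiDir_shkL hΩ _ h hΛ a (Or.inl (List.mem_finRange a))

end Vale.Agent.P209.H856
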