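import Vale.Agent.P209.H856.Shake2

/-! # P209: shaking is equimeasurable (it preserves the integral of the square) -/

namespace Vale.Agent.P209.H856

open Function MeasureTheory Set
open scoped ENNReal

variable {d : ℕ} {Ω : Set (Fin d → ℝ)} {B κ Λ M : ℝ} {f g : (Fin d → ℝ) → ℝ} {a b : Fin d}
  {u v : Fin d → ℝ}

/-- Comparison along a coordinate path. -/
theorem path_bounds (hΩ : DomOK Ω B κ) (hf : Cls Ω Λ M f) {w u : Fin d → ℝ} (hu : u ∈ Ω)
    (hw : ∀ a, 0 ≤ w a) (hwu : ∀ a, w a ≤ u a) (s : Finset (Fin d)) :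
    f (s.piecewise u w) ≤ f w + ∑ a ∈ s, (u a - w a) ∧
      f w - Λ * ∑ a ∈ s, (u a - w a) ≤ f (s.piecewise u w) := by
  classical
  induction s using Finset.induction_on with
  | empty => simp
  | insert b s hb ih =>
    have hle : ∀ (t : Finset (Fin d)) (a : Fin d), t.piecewise u w a ≤ u a := by
      intro t a
      by_cases ha : a ∈ t
      · simp [Finset.piecewise_eq_of_mem _ _ _ ha]
      · simp only [Finset.piecewise_eq_of_notMem _ _ _ ha]; exact hwu a
    have hge : ∀ (t : Finset (Fin d)) (a : Fin d), 0 ≤ t.piecewise u w a := by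
      intro t a
      by_cases ha : a ∈ t
      · simp only [Finset.piecewise_eq_of_mem _ _ _ ha]; exact (hw a).trans (hwu a)
      · simp only [Finset.piecewise_eq_of_notMem _ _ _ ha]; exact hw a
    have hmem : ∀ t : Finset (Fin d), t.piecewise u w ∈ Ω := fun t =>
      hΩ.down u hu _ (hge t) (hle t)
    have hpb : s.piecewise u w b = w b := Finset.piecewise_eq_of_notMem _ _ _ hb
    have e : (insert b s).piecewise u w =
        update (s.piecewise u w) b ((s.piecewise u w) b + (u b - w b)) := by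
      rw [Finset.piecewise_insert, hpb]
      congr 1
      ring
    have h1 := hf.up _ (hmem s) b (u b - w b) (by linarith [hwu b]) (by rw [← e]; exact hmem _)
    have h2 := hf.lo _ (hmem s) b (u b - w b) (by linarith [hwu b]) (by rw [← e]; exact hmem _)
    rw [← e] at h1 h2
    rw [Finset.sum_insert hb]
    exact ⟨by linarith [ih.1], by linarith [ih.2]⟩

theorem Cls.abs_sub_le (hΩ : DomOK Ω B κ) (hf : Cls Ω Λ M f) (hΛ : 0 ≤ Λ) (hu : u ∈ Ω)
    (hv : v ∈ Ω) : |f u - f v| ≤ (Λ + 1) * ∑ a, |u a - v a| := by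
  classical
  set w : Fin d → ℝ := fun a => min (u a) (v a) with hw
  have hw0 : ∀ a, 0 ≤ w a := fun a => le_min (hΩ.nonneg u hu a) (hΩ.nonneg v hv a)
  have pu := path_bounds hΩ hf hu hw0 (fun a => min_le_left _ _) Finset.univ
  have pv := path_bounds hΩ hf hv hw0 (fun a => min_le_right _ _) Finset.univ
  rw [Finset.piecewise_univ] at pu pv
  have s1 : ∑ a, (u a - w a) ≤ ∑ a, |u a - v a| := by
    refine Finset.sum_le_sum fun a _ => ?_
    rcases le_total (u a) (v a) with h | h
    · simp [hw, min_eq_left h]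
    · simp only [hw, min_eq_right h]; exact le_abs_self _
  have s2 : ∑ a, (v a - w a) ≤ ∑ a, |u a - v a| := by
    refine Finset.sum_le_sum fun a _ => ?_
    rcases le_total (u a) (v a) with h | h
    · simp only [hw, min_eq_left h]; rw [abs_sub_comm]; exact le_abs_self _
    · simp [hw, min_eq_right h]
  have s3 : 0 ≤ ∑ a, (u a - w a) := Finset.sum_nonneg fun a _ => by
    simp only [hw]; linarith [min_le_left (u a) (v a)]
  have s4 : 0 ≤ ∑ a, (v a - w a) := Finset.sum_nonneg fun a _ => by
    simp only [hw]; linarith [min_le_right (u a) (v a)]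
  rw [abs_le]
  constructor
  · nlinarith [pu.2, pv.1, mul_le_mul_of_nonneg_left s1 hΛ]
  · nlinarith [pu.1, pv.2, mul_le_mul_of_nonneg_left s2 hΛ]

theorem Cls.continuousOn (hΩ : DomOK Ω B κ) (hf : Cls Ω Λ M f) (hΛ : 0 ≤ Λ) :
    ContinuousOn f Ω := by
  intro u hu
  rw [ContinuousWithinAt, tendsto_iff_dist_tendsto_zero]
  have hlim : Filter.Tendsto (fun v : Fin d → ℝ => (Λ + 1) * ∑ a, |v a - u a|)
      (nhdsWithin u Ω) (nhds 0) := by
    have : Continuous (fun v : Fin d → ℝ => (Λ + 1) * ∑ a, |v a - u a|) := by fun_prop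
    have h := this.tendsto u
    simp only [sub_self, abs_zero, Finset.sum_const_zero, mul_zero] at h
    exact h.mono_left nhdsWithin_le_nhds
  refine squeeze_zero' (Filter.Eventually.of_forall fun _ => dist_nonneg) ?_ hlim
  filter_upwards [self_mem_nhdsWithin] with v hv
  rw [Real.dist_eq]
  exact hf.abs_sub_le hΩ hΛ hv hu

/-- The set of lengths fitting in a bounded order-connected set has the same measure. -/
theorem vol_fit {S : Set ℝ} {B : ℝ} (h0 : ∀ x ∈ S, 0 ≤ x) (hB : ∀ x ∈ S, x ≤ B)
    (hS : S.OrdConnected) :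
    volume {y : ℝ | 0 ≤ y ∧ ∃ x : ℝ, 0 ≤ x ∧ x ∈ S ∧ x + y ∈ S} = volume S := by
  rcases S.eq_empty_or_nonempty with rfl | hne
  · simp
  set G := {y : ℝ | 0 ≤ y ∧ ∃ x : ℝ, 0 ≤ x ∧ x ∈ S ∧ x + y ∈ S} with hG
  have bB : BddAbove S := ⟨B, hB⟩
  have b0 : BddBelow S := ⟨0, h0⟩
  set α := sInf S
  set β := sSup S
  have S1 : Ioo α β ⊆ S := by
    intro y hy
    obtain ⟨x, hx, hxy⟩ := exists_lt_of_csInf_lt hne hy.1
    obtain ⟨z, hz, hyz⟩ := exists_lt_of_lt_csSup hne hy.2
    exact hS.out hx hz ⟨hxy.le, hyz.le⟩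
  have S2 : S ⊆ Icc α β := fun y hy => ⟨csInf_le b0 hy, le_csSup bB hy⟩
  have G1 : Ioo 0 (β - α) ⊆ G := by
    intro y hy
    have hη : 0 < (β - α - y) / 2 := by linarith [hy.2]
    obtain ⟨x, hx, hx'⟩ := exists_lt_of_csInf_lt hne
      (show sInf S < α + (β - α - y) / 2 by simp only [α] at hη ⊢; linarith)
    obtain ⟨z, hz, hz'⟩ := exists_lt_of_lt_csSup hne
      (show β - (β - α - y) / 2 < sSup S by simp only [β] at hη ⊢; linarith)
    exact ⟨hy.1.le, x, h0 x hx, hx, hS.out hx hz ⟨by linarith [hy.1], by linarith⟩⟩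
  have G2 : G ⊆ Icc 0 (β - α) := by
    rintro y ⟨hy, x, _, hx, hxy⟩
    have h1 := (S2 hx).1
    have h2 := (S2 hxy).2
    exact ⟨hy, by linarith⟩
  have vS : volume S = ENNReal.ofReal (β - α) := by
    apply le_antisymm
    · exact (measure_mono S2).trans (by rw [Real.volume_Icc])
    · exact le_trans (by rw [Real.volume_Ioo]) (measure_mono S1)
  have vG : volume G = ENNReal.ofReal (β - α) := by
    apply le_antisymm
    · exact (measure_mono G2).trans (by rw [Real.volume_Icc, sub_zero])
    · exact le_trans (by rw [Real.volume_Ioo, sub_zero]) (measure_mono G1)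
  rw [vS, vG]

theorem measurable_upd (u : Fin d → ℝ) (a : Fin d) : Measurable (fun x : ℝ => update u a x) :=
  measurable_update u

theorem continuous_upd (u : Fin d → ℝ) (a : Fin d) : Continuous (fun x : ℝ => update u a x) :=
  continuous_const.update a continuous_id

/-- Equimeasurability on a line. -/
theorem line_lintegral (hΩ : DomOK Ω B κ) (hf : ConcaveOn ℝ Ω f) (hM : ∀ u ∈ Ω, f u ≤ M)
    (hc : ContinuousOn f Ω) (hc' : ContinuousOn (shk Ω a f) Ω) (u : Fin d → ℝ)
    {φ : ℝ → ℝ≥0∞} (hφ : Measurable φ) :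
    ∫⁻ x in {x : ℝ | update u a x ∈ Ω}, φ (f (update u a x)) =
      ∫⁻ x in {x : ℝ | update u a x ∈ Ω}, φ (shk Ω a f (update u a x)) := by
  set I := {x : ℝ | update u a x ∈ Ω} with hI
  have hIm : MeasurableSet I := measurable_upd u a hΩ.meas
  have hI0 : ∀ x ∈ I, 0 ≤ x := fun x hx => by
    have := hΩ.nonneg _ hx a
    simpa using this
  have hIB : ∀ x ∈ I, x ≤ B := fun x hx => by
    have := hΩ.bdd _ hx a
    simpa using this
  have hI_le : ∀ {x y : ℝ}, y ∈ I → 0 ≤ x → x ≤ y → x ∈ I := fun hy h0 h =>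
    hΩ.upd_le hy h0 h
  have c1 : ContinuousOn (fun x => f (update u a x)) I :=
    hc.comp (continuous_upd u a).continuousOn (fun x hx => hx)
  have c2 : ContinuousOn (fun x => shk Ω a f (update u a x)) I :=
    hc'.comp (continuous_upd u a).continuousOn (fun x hx => hx)
  have m1 : AEMeasurable (fun x => f (update u a x)) (volume.restrict I) := c1.aemeasurable hIm
  have m2 : AEMeasurable (fun x => shk Ω a f (update u a x)) (volume.restrict I) :=
    c2.aemeasurable hIm
  have hfin : volume I ≠ ∞ := by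
    have : volume I ≤ volume (Icc 0 B) := measure_mono fun x hx => ⟨hI0 x hx, hIB x hx⟩
    rw [Real.volume_Icc] at this
    exact (this.trans_lt ENNReal.ofReal_lt_top).ne
  haveI : IsFiniteMeasure (volume.restrict I) := ⟨by
    rw [Measure.restrict_apply_univ]; exact hfin.lt_top⟩
  -- superlevel sets
  have level : ∀ p : ℝ, volume ({x | p < f (update u a x)} ∩ I) =
      volume ({x | p < shk Ω a f (update u a x)} ∩ I) := by
    intro p
    set S := {x | p < f (update u a x)} ∩ I with hS
    have hSc : S.OrdConnected := by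
      refine ⟨fun x hx z hz y hy => ⟨?_, hI_le hz.2 ((hI0 x hx.2).trans hy.1) hy.2⟩⟩
      have := quasi_line (u := u) (a := a) hf hx.2 hz.2 hy.1 hy.2
      exact lt_of_lt_of_le (lt_min hx.1 hz.1) this
    have := vol_fit (S := S) (B := B) (fun x hx => hI0 x hx.2) (fun x hx => hIB x hx.2) hSc
    rw [← this]
    congr 1
    ext y
    constructor
    · rintro ⟨hy, x, hx0, hx, hxy⟩
      have hyI : y ∈ I := hI_le hxy.2 hy (by linarith)
      refine ⟨?_, hyI⟩
      have k := le_shk (a := a) (u := update u a y) hM (x := x) hx0 (by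
        simp only [update_self, update_idem]
        exact hxy.2)
      simp only [update_self, update_idem] at k
      exact lt_of_lt_of_le (lt_min hx.1 hxy.1) k
    · rintro ⟨hy, hyI⟩
      obtain ⟨x, hx0, h1, h2, h3⟩ := exists_of_lt_shk (show update u a y ∈ Ω from hyI) hy
      simp only [update_self, update_idem] at h1 h2 h3
      have hxy : x + y ∈ I := h1
      exact ⟨hI0 y hyI, x, hx0, ⟨h2, hI_le hxy hx0 (by linarith [hI0 y hyI])⟩, h3, hxy⟩
  have heq : (volume.restrict I).map (fun x => f (update u a x)) =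
      (volume.restrict I).map (fun x => shk Ω a f (update u a x)) := by
    haveI : IsFiniteMeasure ((volume.restrict I).map (fun x => f (update u a x))) :=
      Measure.isFiniteMeasure_map _ _
    haveI : IsFiniteMeasure ((volume.restrict I).map (fun x => shk Ω a f (update u a x))) :=
      Measure.isFiniteMeasure_map _ _
    refine Measure.ext_of_Iic _ _ fun p => ?_
    have tot : (volume.restrict I).map (fun x => f (update u a x)) univ =
        (volume.restrict I).map (fun x => shk Ω a f (update u a x)) univ := by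
      rw [Measure.map_apply_of_aemeasurable m1 MeasurableSet.univ,
        Measure.map_apply_of_aemeasurable m2 MeasurableSet.univ]
      simp
    have ioi : (volume.restrict I).map (fun x => f (update u a x)) (Ioi p) =
        (volume.restrict I).map (fun x => shk Ω a f (update u a x)) (Ioi p) := by
      rw [Measure.map_apply_of_aemeasurable m1 measurableSet_Ioi,
        Measure.map_apply_of_aemeasurable m2 measurableSet_Ioi,
        Measure.restrict_apply' hIm, Measure.restrict_apply' hIm]
      exact level p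
    have e : Iic p = (Ioi p)ᶜ := by rw [compl_Ioi]
    rw [e, measure_compl measurableSet_Ioi (measure_ne_top _ _),
      measure_compl measurableSet_Ioi (measure_ne_top _ _), tot, ioi]
  have l1 := lintegral_map' (μ := volume.restrict I) (f := φ) hφ.aemeasurable m1
  have l2 := lintegral_map' (μ := volume.restrict I) (f := φ) hφ.aemeasurable m2
  rw [← l1, ← l2, heq]

theorem measurable_ind (hΩ : DomOK Ω B κ) (hc : ContinuousOn f Ω) {φ : ℝ → ℝ≥0∞}
    (hφ : Measurable φ) : Measurable (Ω.indicator (fun u => φ (f u))) := by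
  classical
  have h1 : Measurable (Ω.piecewise f (fun _ => (0 : ℝ))) :=
    hc.measurable_piecewise continuousOn_const hΩ.meas
  have h2 : Ω.indicator (fun u => φ (f u)) =
      Ω.indicator (fun u => φ (Ω.piecewise f (fun _ => (0 : ℝ)) u)) := by
    ext u
    by_cases hu : u ∈ Ω
    · simp [hu]
    · simp [hu]
  rw [h2]
  exact (hφ.comp h1).indicator hΩ.meas

/-- Equimeasurability. -/
theorem lintegral_shk (hΩ : DomOK Ω B κ) (hf : ConcaveOn ℝ Ω f) (hM : ∀ u ∈ Ω, f u ≤ M)
    (hc : ContinuousOn f Ω) (hc' : ContinuousOn (shk Ω a f) Ω) {φ : ℝ → ℝ≥0∞}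
    (hφ : Measurable φ) :
    ∫⁻ u in Ω, φ (f u) = ∫⁻ u in Ω, φ (shk Ω a f u) := by
  rw [← lintegral_indicator hΩ.meas, ← lintegral_indicator hΩ.meas]
  have := lintegral_eq_of_lmarginal_eq (μ := fun _ : Fin d => (volume : Measure ℝ)) {a}
    (measurable_ind hΩ hc hφ) (measurable_ind hΩ hc' hφ) (by
      rw [lmarginal_singleton, lmarginal_singleton]
      funext u
      have hIm : MeasurableSet {x : ℝ | update u a x ∈ Ω} := measurable_upd u a hΩ.meas
      have e1 : ∀ F : (Fin d → ℝ) → ℝ≥0∞, (fun x : ℝ => Ω.indicator F (update u a x)) =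
          {x : ℝ | update u a x ∈ Ω}.indicator (fun x => F (update u a x)) := by
        intro F
        ext x
        by_cases hx : update u a x ∈ Ω
        · simp [hx]
        · simp [hx]
      rw [e1, e1, lintegral_indicator hIm, lintegral_indicator hIm]
      exact line_lintegral hΩ hf hM hc hc' u hφ)
  exact this

theorem integral_sq_shk (hΩ : DomOK Ω B κ) (hf : Cls Ω Λ M f) (hΛ : 0 ≤ Λ) (a : Fin d) :
    ∫ u in Ω, (shk Ω a f u) ^ 2 = ∫ u in Ω, (f u) ^ 2 := by
  have hc := hf.continuousOn hΩ hΛ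
  have hc' := (hf.shk hΩ hΛ a).continuousOn hΩ (by linarith [hΩ.kappa])
  have hφ : Measurable (fun t : ℝ => ENNReal.ofReal (t ^ 2)) := by fun_prop
  have h := lintegral_shk (a := a) hΩ hf.conc hf.le hc hc' hφ
  rw [integral_eq_lintegral_of_nonneg_ae, integral_eq_lintegral_of_nonneg_ae, h]
  · exact Filter.Eventually.of_forall fun u => sq_nonneg _
  · exact ((hc.pow 2).aestronglyMeasurable hΩ.meas)
  · exact Filter.Eventually.of_forall fun u => sq_nonneg _
  · exact ((hc'.pow 2).aestronglyMeasurable hΩ.meas)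

theorem integral_sq_shkL (hΩ : DomOK Ω B κ) (l : List (Fin d)) :
    ∀ {Λ : ℝ} {f : (Fin d → ℝ) → ℝ}, Cls Ω Λ M f → 0 ≤ Λ →
      ∫ u in Ω, (shkL Ω l f u) ^ 2 = ∫ u in Ω, (f u) ^ 2 := by
  induction l with
  | nil => intro Λ f _ _; rfl
  | cons a l ih =>
    intro Λ f hf hΛ
    rw [shkL_cons, ih (hf.shk hΩ hΛ a) (by linarith [hΩ.kappa]), integral_sq_shk hΩ hf hΛ a]

end Vale.Agent.P209.H856
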